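import Crest.Agent.R17.K.Ext

/-!
Row 17, block K: elementary bounds for log-normal sums, the detector functions.
-/

set_option autoImplicit false

namespace Crest.Agent.R17

open MeasureTheory Set

theorem k_norm_LN (a Y t x : ℝ) :
    ‖LN a Y t x‖ = Real.exp (-(Real.log (x / Y) ^ 2 / (2 * a ^ 2))) := by
  rw [LN, Complex.norm_exp]
  congr 1
  rw [Complex.add_re, Complex.neg_re, Complex.ofReal_re, Complex.mul_re, Complex.I_re, Complex.I_im,
    Complex.ofReal_im]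
  ring

theorem kb_log_div {x : ℝ} (hx : 0 < x) (l : ℝ) : Real.log (x / Real.exp l) = Real.log x - l := by
  rw [Real.log_div hx.ne' (Real.exp_pos l).ne', Real.log_exp]

theorem kb_nm_pos (n : Pr) : 0 < nm (n : O) := lt_of_lt_of_le one_pos (k_one_le_nm n)

/-- `-ξ²/(2a²) ≤ -D ξ + a² D²/2` with `ξ = log x - l`. -/
theorem k_norm_LN_le {a : ℝ} (ha : 0 < a) (D l t : ℝ) {x : ℝ} (hx : 0 < x) :
    ‖LN a (Real.exp l) t x‖ ≤ Real.exp (a ^ 2 * D ^ 2 / 2) * Real.exp (D * l) * x ^ (-D) := by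
  rw [k_norm_LN, kb_log_div hx, Real.rpow_def_of_pos hx, ← Real.exp_add, ← Real.exp_add]
  refine Real.exp_le_exp.2 ?_
  have h : 0 ≤ (Real.log x - l - a ^ 2 * D) ^ 2 / (2 * a ^ 2) := by positivity
  have e : (Real.log x - l - a ^ 2 * D) ^ 2 / (2 * a ^ 2) =
      (Real.log x - l) ^ 2 / (2 * a ^ 2) - D * (Real.log x - l) + a ^ 2 * D ^ 2 / 2 := by
    field_simp; ring
  linarith

theorem k_summable_LN {a : ℝ} (ha : 0 < a) (l t : ℝ) :
    Summable fun n : Pr => ‖LN a (Real.exp l) t (nm n)‖ :=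
  Summable.of_nonneg_of_le (fun _ => norm_nonneg _)
    (fun n => k_norm_LN_le ha 2 l t (kb_nm_pos n))
    ((k_summable_rpow (s := 2) (by norm_num)).mul_left _)

theorem kb_term_le {a : ℝ} (ha : 0 < a) (D : ℝ) {f : O → ℂ} (hf : ∀ n, ‖f n‖ ≤ 1) (l t : ℝ) (n : Pr) :
    ‖f n * LN a (Real.exp l) t (nm n)‖ ≤
      Real.exp (a ^ 2 * D ^ 2 / 2) * Real.exp (D * l) * nm (n : O) ^ (-D) := by
  rw [norm_mul]
  exact (mul_le_of_le_one_left (norm_nonneg _) (hf n)).trans (k_norm_LN_le ha D l t (kb_nm_pos n))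

/-- trivial bound, for every real `l` -/
theorem k_norm_PS_le {a D : ℝ} (ha : 0 < a) (hD : 1 < D) : ∃ C : ℝ, 0 ≤ C ∧
    ∀ (f : O → ℂ), (∀ n, ‖f n‖ ≤ 1) → ∀ l t : ℝ,
      ‖PS f a (Real.exp l) t‖ ≤ C * Real.exp (D * l) := by
  refine ⟨Real.exp (a ^ 2 * D ^ 2 / 2) * ∑' n : Pr, nm (n : O) ^ (-D),
    mul_nonneg (Real.exp_pos _).le (tsum_nonneg fun n => Real.rpow_nonneg (k_nm_nonneg _) _),
    fun f hf l t => ?_⟩
  have h := tsum_of_norm_bounded
    (((k_summable_rpow hD).mul_left (Real.exp (a ^ 2 * D ^ 2 / 2) * Real.exp (D * l))).hasSum)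
    (kb_term_le ha D hf l t)
  rw [tsum_mul_left] at h
  exact h.trans (le_of_eq (by ring))

theorem k_continuous_PS_t {a : ℝ} (ha : 0 < a) {f : O → ℂ} (hf : ∀ n, ‖f n‖ ≤ 1) (l : ℝ) :
    Continuous fun t : ℝ => PS f a (Real.exp l) t := by
  refine continuous_tsum (fun n => ?_)
    ((k_summable_rpow (s := 2) (by norm_num)).mul_left
      (Real.exp (a ^ 2 * 2 ^ 2 / 2) * Real.exp (2 * l))) fun n t => kb_term_le ha 2 hf l t n
  unfold LN
  fun_prop

/-- (`continuousOn_tsum` on `Iic l₀`, or local uniform bounds from `k_norm_LN_le`.) -/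
theorem k_continuous_PS_l {a : ℝ} (ha : 0 < a) {f : O → ℂ} (hf : ∀ n, ‖f n‖ ≤ 1) (t : ℝ) :
    Continuous fun l : ℝ => PS f a (Real.exp l) t := by
  refine continuous_iff_continuousAt.2 fun l₀ => ?_
  have h : ContinuousOn (fun l : ℝ => PS f a (Real.exp l) t) (Iic (l₀ + 1)) := by
    refine continuousOn_tsum (fun n => Continuous.continuousOn ?_)
      ((k_summable_rpow (s := 2) (by norm_num)).mul_left
        (Real.exp (a ^ 2 * 2 ^ 2 / 2) * Real.exp (2 * (l₀ + 1)))) fun n l hl => ?_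
    · simp only [LN, kb_log_div (kb_nm_pos n)]
      fun_prop
    · refine (kb_term_le ha 2 hf l t n).trans ?_
      have hl' : l ≤ l₀ + 1 := hl
      have := Real.rpow_nonneg (k_nm_nonneg (n : O)) (-2)
      gcongr
  exact h.continuousAt (Iic_mem_nhds (by linarith))

theorem k_MS_eq (ψ : O → ℂ) (a Y t : ℝ) : MS ψ a Y t = PS (fun n => mu n * ψ n) a Y t := rfl

theorem k_norm_mu_mul_le {f : O → ℂ} (hf : ∀ n, ‖f n‖ ≤ 1) (n : O) : ‖mu n * f n‖ ≤ 1 := by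
  rw [norm_mul]
  exact mul_le_one₀ (k_norm_mu_le n) (norm_nonneg _) (hf n)

/-- powers of `log Z` are eventually below `Z ^ ε` -/
theorem k_polylog (C c : ℝ) {ε : ℝ} (hc : 0 ≤ c) (hε : 0 < ε) : ∃ Z₀ : ℝ, 3 ≤ Z₀ ∧
    ∀ Z, Z₀ ≤ Z → C * (1 + c * Real.log Z ^ 2) ^ C ≤ Z ^ ε := by
  rcases le_or_gt C 0 with hC | hC
  · refine ⟨3, le_rfl, fun Z hZ => ?_⟩
    have h1 : 0 ≤ (1 + c * Real.log Z ^ 2) ^ C := Real.rpow_nonneg (by positivity) _
    exact (mul_nonpos_of_nonpos_of_nonneg hC h1).trans (Real.rpow_nonneg (by linarith) _)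
  · have hK : 0 < C * (1 + c) ^ C := by positivity
    have h := (isLittleO_log_rpow_rpow_atTop (2 * C) hε).bound (inv_pos.2 hK)
    obtain ⟨Z₁, hZ₁⟩ := Filter.eventually_atTop.1 h
    refine ⟨max 3 Z₁, le_max_left _ _, fun Z hZ => ?_⟩
    have h3 : 3 ≤ Z := (le_max_left _ _).trans hZ
    have hL : 1 ≤ Real.log Z := by
      rw [Real.le_log_iff_exp_le (by linarith)]
      exact Real.exp_one_lt_three.le.trans h3
    have h4 := hZ₁ Z ((le_max_right _ _).trans hZ)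
    rw [Real.norm_of_nonneg (Real.rpow_nonneg (by linarith) _),
      Real.norm_of_nonneg (Real.rpow_nonneg (by linarith) _)] at h4
    have h5 : (1 + c * Real.log Z ^ 2) ^ C ≤ (1 + c) ^ C * Real.log Z ^ (2 * C) := by
      rw [Real.rpow_mul (by linarith), ← Real.mul_rpow (by positivity) (by positivity)]
      refine Real.rpow_le_rpow (by positivity) ?_ hC.le
      rw [Real.rpow_two]
      nlinarith
    calc C * (1 + c * Real.log Z ^ 2) ^ C ≤ C * ((1 + c) ^ C * Real.log Z ^ (2 * C)) := by gcongr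
      _ = C * (1 + c) ^ C * Real.log Z ^ (2 * C) := by ring
      _ ≤ C * (1 + c) ^ C * ((C * (1 + c) ^ C)⁻¹ * Z ^ ε) := by gcongr
      _ = Z ^ ε := by field_simp

/-- the positive kernel `exp (β ξ - ξ² / (2 a²))` -/
noncomputable def kk (a β ξ : ℝ) : ℝ := Real.exp (β * ξ - ξ ^ 2 / (2 * a ^ 2))

/-- the detector sum `e^{-ρ l} ∑ f(n) V(N n; e^l, -Im ρ)` -/
noncomputable def Dk (f : O → ℂ) (a : ℝ) (ρ : ℂ) (l : ℝ) : ℂ :=
  Complex.exp (-(ρ * l)) * PS f a (Real.exp l) (-ρ.im)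

/-- upper tail of `kk * kk` -/
noncomputable def GG (a β z : ℝ) : ℝ := ∫ s, kk a β s * ∫ ξ in Ici (z - s), kk a β ξ

theorem k_norm_Dk (f : O → ℂ) (a : ℝ) (ρ : ℂ) (l : ℝ) :
    ‖Dk f a ρ l‖ = Real.exp (-(ρ.re * l)) * ‖PS f a (Real.exp l) (-ρ.im)‖ := by
  rw [Dk, norm_mul, Complex.norm_exp]
  simp

/-- termwise: `e^{-ρ l} V(x; e^l, -Im ρ) = x^{-ρ} kk (log x - l)` -/
theorem k_Dk_term (a : ℝ) (ρ : ℂ) (l : ℝ) {x : ℝ} (hx : 0 < x) :
    Complex.exp (-(ρ * l)) * LN a (Real.exp l) (-ρ.im) x =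
      (x : ℂ) ^ (-ρ) * (kk a ρ.re (Real.log x - l) : ℂ) := by
  rw [LN, kb_log_div hx, kk, Complex.cpow_def_of_ne_zero (by exact_mod_cast hx.ne'),
    ← Complex.ofReal_log hx.le, Complex.ofReal_exp, ← Complex.exp_add, ← Complex.exp_add]
  congr 1
  conv_lhs => rw [← Complex.re_add_im ρ]
  conv_rhs => rw [← Complex.re_add_im ρ]
  simp only [Complex.add_re, Complex.ofReal_re, Complex.mul_re, Complex.I_re, Complex.I_im,
    Complex.ofReal_im, Complex.add_im, Complex.mul_im]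
  push_cast
  ring

theorem k_Dk_eq (f : O → ℂ) (a : ℝ) (ρ : ℂ) (l : ℝ) :
    Dk f a ρ l =
      ∑' n : Pr, f n * (nm n : ℂ) ^ (-ρ) * (kk a ρ.re (Real.log (nm n) - l) : ℂ) := by
  rw [Dk, PS, ← tsum_mul_left]
  refine tsum_congr fun n => ?_
  rw [mul_left_comm, k_Dk_term a ρ l (kb_nm_pos n), mul_assoc]

theorem kk_pos (a β ξ : ℝ) : 0 < kk a β ξ := Real.exp_pos _

theorem kk_mul_exp (a β D ξ : ℝ) : kk a β ξ * Real.exp (D * ξ) = kk a (β + D) ξ := by
  rw [kk, kk, ← Real.exp_add]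
  congr 1
  ring

theorem integrable_kk {a : ℝ} (ha : 0 < a) (β : ℝ) : Integrable (kk a β) := by
  have hb : 0 < 1 / (2 * a ^ 2) := by positivity
  have h := ((integrable_exp_neg_mul_sq hb).comp_sub_right (a ^ 2 * β)).const_mul
    (Real.exp (a ^ 2 * β ^ 2 / 2))
  refine h.congr (Filter.Eventually.of_forall fun ξ => ?_)
  simp only [kk]
  rw [← Real.exp_add]
  congr 1
  field_simp
  ring

end Crest.Agent.R17
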