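import Crest.Agent.R17.K.Sup

/-!
Row 17, block K: counting rows with a large Möbius sum.
-/

set_option autoImplicit false

namespace Crest.Agent.R17

theorem cntMa_hasSum {Ps : Finset O} (hPs : ∀ p ∈ Ps, Prim p) (f : O → ℂ) [DecidableEq O] :
    HasSum (fun n : Pr => if (n : O) ∈ Ps then f n else 0) (∑ p ∈ Ps, f p) := by
  have hg1 : HasSum (fun n : O => if n ∈ Ps then f n else 0)
      (∑ p ∈ Ps, if p ∈ Ps then f p else 0) :=
    hasSum_sum_of_ne_finset_zero fun n hn => if_neg hn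
  rw [Finset.sum_congr rfl fun n hn => if_pos hn] at hg1
  exact (Subtype.val_injective.hasSum_iff fun n hn => if_neg fun h =>
    hn ⟨⟨n, hPs n h⟩, rfl⟩).2 hg1

/-- Truncation of the prime sum at `N(p) ≤ P^{1+e}`: the tail is at most
`exp (a² D²/2) ∑_{N(n) > P^{1+e}} (P / N n)^D ≤ C(a, e)` for `D = 2 + 2/e` (`k_norm_LN_le` with
`l = log P`), and `C(a, e) ≤ P^{1/2} / 2` for `P ≥ P₀`.  `Ps` = primary primes prime to `q` of norm
`≤ P^{1+e}` (`k_finite_nm_le`), `ω p = one q p * LN a P τ (nm p)`. -/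
theorem k_trunc_PP (q : O) {a e : ℝ} (ha : 0 < a) (he : 0 < e) : ∃ P₀ : ℝ, 1 ≤ P₀ ∧
    ∀ P τ : ℝ, P₀ ≤ P → ∃ (Ps : Finset O) (ω : O → ℂ),
      (∀ p ∈ Ps, Prime p ∧ Prim p ∧ IsCoprime p q ∧ nm p ≤ P ^ (1 + e)) ∧ (∀ p, ‖ω p‖ ≤ 1) ∧
      ∀ u : O, ‖PP (rc (one q) u) a P τ - ∑ p ∈ Ps, ω p * sx u p‖ ≤ P ^ (1 / 2 : ℝ) / 2 := by
  classical
  obtain ⟨C, hC, H⟩ := sum_LN_O_negl ha he 0 1
  obtain ⟨C', -, H'⟩ := sum_LN_O ha 0
  refine ⟨1 + (2 * C) ^ 2, by nlinarith [sq_nonneg (2 * C)], fun P τ hP => ?_⟩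
  have hP1 : 1 ≤ P := by nlinarith [sq_nonneg (2 * C)]
  have hP0 : 0 < P := by linarith
  have hone : ∀ n, ‖one q n‖ ≤ 1 := fun n => by
    unfold one
    split_ifs <;> simp
  set Ps : Finset O := (k_finite_nm_le (P ^ (1 + e))).toFinset.filter
    fun p => Prime p ∧ Prim p ∧ IsCoprime p q with hPs
  have hmem : ∀ p, p ∈ Ps ↔ Prime p ∧ Prim p ∧ IsCoprime p q ∧ nm p ≤ P ^ (1 + e) := fun p => by
    simp only [hPs, Finset.mem_filter, Set.Finite.mem_toFinset, Set.mem_ofPred_eq]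
    exact ⟨fun h => ⟨h.2.1, h.2.2.1, h.2.2.2, h.1⟩, fun h => ⟨h.2.2.2, h.1, h.2.1, h.2.2.1⟩⟩
  refine ⟨Ps, fun p => one q p * LN a P τ (nm p), fun p hp => (hmem p).1 hp, fun p => ?_,
    fun u => ?_⟩
  · rw [norm_mul]
    exact mul_le_one₀ (hone p) (norm_nonneg _) (norm_LN_le_one _ _ _ _)
  set c : Pr → ℂ := fun n => if Prime (n : O) ∧ P ^ (1 + e) < nm n then rc (one q) u n else 0
    with hc
  set g : O → ℂ := fun n => if n ∈ Ps then one q n * LN a P τ (nm n) * sx u n else 0 with hg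
  have hc0 : ∀ n : Pr, (n : O) = 0 → c n = 0 := fun n hn => absurd hn (sob_Pr_ne_zero n)
  have hc1 : ∀ n : Pr, (n : O) ≠ 0 → ‖c n‖ ≤ 1 * nm (n : O) ^ (0 : ℝ) := fun n _ => by
    rw [Real.rpow_zero, mul_one, hc]
    dsimp only
    split_ifs
    · rw [rc, norm_mul]
      exact mul_le_one₀ (hone n) (norm_nonneg _) (k_norm_sx_le u n)
    · simp
  have hs := (H' (fun n : Pr => (n : O)) c 1 P τ Subtype.val_injective hc0 hc1 zero_le_one hP0).1
  have ht := H (fun n : Pr => (n : O)) c 1 P τ P Subtype.val_injective hc0 hc1 zero_le_one hP0 hP1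
    fun n hn => Or.inr (by
      by_contra h
      refine hn (if_neg fun h' => h ?_)
      rw [Real.rpow_add hP0, Real.rpow_one] at h'
      exact h'.2.le)
  have hg2 : HasSum (fun n : Pr => g n) (∑ p ∈ Ps, one q p * LN a P τ (nm p) * sx u p) :=
    cntMa_hasSum (fun p hp => ((hmem p).1 hp).2.1) fun n => one q n * LN a P τ (nm n) * sx u n
  have hsplit : ∀ n : Pr, (if Prime (n : O) then rc (one q) u n * LN a P τ (nm n) else 0) =
      g n + c n * LN a P τ (nm n) := fun n => by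
    rw [hg, hc]
    dsimp only
    by_cases h1 : Prime (n : O)
    · by_cases h2 : P ^ (1 + e) < nm n
      · rw [if_pos h1, if_neg fun h => absurd ((hmem _).1 h).2.2.2 (not_le.2 h2),
          if_pos (And.intro h1 h2), zero_add]
      · rw [if_pos h1, if_neg fun h : Prime (n : O) ∧ _ => h2 h.2, zero_mul, add_zero, rc]
        split_ifs with h3
        · ring
        · rw [one, if_neg fun h => h3 ((hmem _).2 ⟨h1, n.2, h, not_lt.1 h2⟩)]
          ring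
    · rw [if_neg h1, if_neg fun h => h1 ((hmem _).1 h).1, if_neg fun h : _ ∧ _ => h1 h.1]
      ring
  rw [PP, tsum_congr hsplit, hg2.summable.tsum_add hs.of_norm, hg2.tsum_eq, add_sub_cancel_left]
  refine (norm_tsum_le_tsum_norm hs).trans (ht.trans ?_)
  rw [zero_add, Real.rpow_one, Real.rpow_neg_one, mul_one, mul_assoc, mul_inv_cancel₀ hP0.ne',
    mul_one, ← Real.sqrt_eq_rpow, le_div_iff₀ two_pos]
  exact Real.le_sqrt_of_sq_le (by nlinarith)

/-- Long sums (`log U ≤ l₀`): `StM1L` with `N = exp l₀ ≤ U² ≤ Z²`, `Z := Z²`, `ε = σ e / 2` (so that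
`(Z²)^ε ≤ U^e`), `k_count` with `p = 2`, `W = 1`, `f u = μ · rc ψ u` (`k_MS_eq`). -/
theorem countM_long (h2 : StM1L) (q : O) (a σ e : ℝ) (hq : Lev q) (ha : 0 < a) (hσ : 0 < σ)
    (he : 0 < e) : ∃ C : ℝ, 0 ≤ C ∧
    ∀ (ψ : O → ℂ) (Z U T b l₀ : ℝ) (A : Finset O), IsTw q ψ → 1 ≤ Z → Z ^ σ ≤ U → U ≤ Z → 0 ≤ T →
    Real.log U ≤ l₀ → l₀ ≤ 2 * Real.log U →
    (∀ u ∈ A, u ≠ 0 ∧ nm u ≤ U ∧ ∃ l t, l₀ ≤ l ∧ l ≤ l₀ + 1 ∧ |t| ≤ T ∧
      Real.exp (b * l₀ - 7 * e * Real.log U) ≤ ‖MS (rc ψ u) (a / 2) (Real.exp l) t‖) →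
    (A.card : ℝ) ≤ C * (1 + T) ^ C *
      Real.exp ((1 / 6 + 15 * e) * Real.log U + (11 / 6 - 2 * b) * l₀) := by
  obtain ⟨C₁, H⟩ := h2 q a (σ * e / 2) hq ha (by positivity)
  obtain ⟨Ck, hCk, hcount⟩ := k_count (a₀ := a / 2) (a := a) (E := |C₁|) (half_pos ha)
    (half_lt_self ha) (abs_nonneg _) (p := 2) one_le_two
  refine ⟨Ck * |C₁| + Ck, by positivity, ?_⟩
  intro ψ Z U T b l₀ A hψ hZ hU hUZ hT hl1 hl2 hA
  have hZ0 : 0 < Z := by linarith
  have hU1 : 1 ≤ U := (Real.one_le_rpow hZ hσ.le).trans hU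
  have hUpos : 0 < U := by linarith
  set L := Real.log U with hL
  have hUe : U = Real.exp L := (Real.exp_log hUpos).symm
  have hσL : σ * Real.log Z ≤ L := by
    rw [Real.rpow_def_of_pos hZ0, mul_comm] at hU
    exact (Real.le_log_iff_exp_le hUpos).2 hU
  have key := hcount A (fun u n => mu n * rc ψ u n) (fun _ => 1) l₀ T
    (Real.exp (b * l₀ - 7 * e * L) ^ 2) (|C₁| * Real.exp (e * L + (11 / 6 * l₀ + L / 6))) hT
    (by positivity) (fun u _ n => k_norm_mu_mul_le (k_norm_rc_le hq hψ u) n)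
    (fun _ _ => zero_le_one)
    (fun u hu => by
      obtain ⟨-, -, l, t, h1, h2, h3, h4⟩ := hA u hu
      refine ⟨l, t, h1, h2, h3, ?_⟩
      rw [← k_MS_eq, mul_one]
      exact pow_le_pow_left₀ (Real.exp_pos _).le h4 2)
    (fun t' => by
      have h := H ψ (Z ^ 2) U (Real.exp l₀) t' A hψ hU1
        (by rw [hUe]; exact Real.exp_le_exp.2 hl1)
        (by
          calc Real.exp l₀ ≤ Real.exp (2 * L) := Real.exp_le_exp.2 hl2
            _ = U ^ 2 := by rw [hUe, ← Real.exp_nat_mul]; norm_num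
            _ ≤ Z ^ 2 := by gcongr)
        (fun k hk => ⟨(hA k hk).1, (hA k hk).2.1⟩)
      simp only [mul_one, ← k_MS_eq]
      refine h.trans ?_
      have h1t : 1 ≤ 1 + |t'| := by linarith [abs_nonneg t']
      have b1 : (Z ^ 2) ^ (σ * e / 2) ≤ Real.exp (e * L) := by
        rw [Real.rpow_def_of_pos (by positivity), Real.log_pow]
        refine Real.exp_le_exp.2 ?_
        push_cast
        nlinarith
      have b3 : (1 + |t'|) ^ C₁ ≤ (1 + |t'|) ^ |C₁| :=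
        Real.rpow_le_rpow_of_exponent_le h1t (le_abs_self _)
      have b4 : Real.exp l₀ ^ (11 / 6 : ℝ) * U ^ (1 / 6 : ℝ) = Real.exp (11 / 6 * l₀ + L / 6) := by
        rw [← Real.exp_mul, Real.rpow_def_of_pos hUpos, ← Real.exp_add]
        congr 1
        ring
      rw [b4, Real.exp_add (e * L)]
      calc C₁ * (Z ^ 2) ^ (σ * e / 2) * (1 + |t'|) ^ C₁ * Real.exp (11 / 6 * l₀ + L / 6)
          = C₁ * ((Z ^ 2) ^ (σ * e / 2) * (1 + |t'|) ^ C₁ * Real.exp (11 / 6 * l₀ + L / 6)) := by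
            ring
        _ ≤ |C₁| * (Real.exp (e * L) * (1 + |t'|) ^ |C₁| * Real.exp (11 / 6 * l₀ + L / 6)) := by
          refine mul_le_mul (le_abs_self _) ?_ (by positivity) (abs_nonneg _)
          gcongr
        _ = _ := by ring)
  rw [← Real.exp_nat_mul, ← le_div_iff₀ (Real.exp_pos _)] at key
  refine key.trans ?_
  have hT1 : 1 ≤ 1 + T := by linarith
  have bT : (1 + T) ^ Ck ≤ (1 + T) ^ (Ck * |C₁| + Ck) :=
    Real.rpow_le_rpow_of_exponent_le hT1 (le_add_of_nonneg_left (by positivity))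
  have bE : Real.exp (e * L + (11 / 6 * l₀ + L / 6)) / Real.exp ((2 : ℕ) * (b * l₀ - 7 * e * L)) =
      Real.exp ((1 / 6 + 15 * e) * L + (11 / 6 - 2 * b) * l₀) := by
    rw [← Real.exp_sub]
    congr 1
    push_cast
    ring
  rw [← bE]
  calc Ck * (1 + T) ^ Ck * (|C₁| * Real.exp (e * L + (11 / 6 * l₀ + L / 6))) /
        Real.exp ((2 : ℕ) * (b * l₀ - 7 * e * L))
      = (Ck * |C₁|) * (1 + T) ^ Ck * (Real.exp (e * L + (11 / 6 * l₀ + L / 6)) /
        Real.exp ((2 : ℕ) * (b * l₀ - 7 * e * L))) := by ring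
    _ ≤ _ := by
      refine mul_le_mul_of_nonneg_right ?_ (by positivity)
      exact mul_le_mul (le_add_of_nonneg_right hCk) bT (by positivity) (by positivity)

/-- the choice of the number of slots -/
theorem cntMb_slots {σ e L p lz w l₀ : ℝ} (hσ : 0 < σ) (he : 0 < e) (he' : e ≤ 1 / 1000)
    (hlz : 0 < lz) (hp : σ * lz ≤ p) (hL : L ≤ lz) (hL0 : 0 ≤ L) (hw0 : 0 ≤ w) (hw : w ≤ 1 / 2)
    (hl : (1 / 2 - 501 * e) * L ≤ l₀) (hl' : l₀ ≤ L) :
    ∃ j : ℕ, j ≤ ⌈1 / σ⌉₊ ∧ (w = 0 → j = 0) ∧ l₀ + 2 * j * ((1 + e) * p) ≤ L ∧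
      4 * j * ((1 + e) * p) ≤ L ∧
      e * (j * p) - 2 * w * (j * p) ≤ 252 * e * L + 2 * p - w * (L - l₀) := by
  have hp0 : 0 < p := lt_of_lt_of_le (mul_pos hσ hlz) hp
  have heL : 0 ≤ e * L := mul_nonneg he.le hL0
  by_cases hw' : w = 0
  · refine ⟨0, Nat.zero_le _, fun _ => rfl, by simpa using hl', by simpa using hL0, ?_⟩
    subst hw'
    simp only [Nat.cast_zero, zero_mul, mul_zero, sub_zero]
    nlinarith
  set m := min (L - l₀) (L / 2) with hm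
  have hm0 : 0 ≤ m := le_min (by linarith) (by linarith)
  have hm1 : m ≤ L - l₀ := min_le_left _ _
  have hm2 : m ≤ L / 2 := min_le_right _ _
  have hm3 : L - l₀ - 501 * e * L ≤ m := le_min (by nlinarith) (by nlinarith)
  have hd : 0 < 2 * ((1 + e) * p) := by positivity
  set j := ⌊m / (2 * ((1 + e) * p))⌋₊ with hj
  have hj1 : (j : ℝ) ≤ m / (2 * ((1 + e) * p)) := Nat.floor_le (div_nonneg hm0 hd.le)
  have hj2 : m / (2 * ((1 + e) * p)) < j + 1 := Nat.lt_floor_add_one _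
  rw [le_div_iff₀ hd] at hj1
  rw [div_lt_iff₀ hd] at hj2
  have hj0 : (0 : ℝ) ≤ j := Nat.cast_nonneg _
  have hjp : 0 ≤ (j : ℝ) * p := mul_nonneg hj0 hp0.le
  have hejp : 0 ≤ e * ((j : ℝ) * p) := mul_nonneg he.le hjp
  have hA : 2 * (j * p) + 2 * (e * (j * p)) ≤ m := by linarith
  have hB : m < 2 * (j * p) + 2 * (e * (j * p)) + 2 * p + 2 * (e * p) := by linarith
  have hC : e * (j * p) ≤ e * L / 4 := by
    have : (j : ℝ) * p ≤ L / 4 := by linarith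
    have := mul_le_mul_of_nonneg_left this he.le
    linarith
  have hD : e * p ≤ p / 1000 := by nlinarith
  refine ⟨j, ?_, fun h => absurd h hw', by linarith, by linarith, ?_⟩
  · have h1 : (j : ℝ) * (σ * lz) ≤ lz := by
      have := mul_le_mul_of_nonneg_left hp hj0
      linarith
    have h2 : (j : ℝ) ≤ 1 / σ := by
      rw [le_div_iff₀ hσ]
      by_contra hc
      push Not at hc
      have := mul_lt_mul_of_pos_right hc hlz
      linarith
    exact_mod_cast h2.trans (Nat.le_ceil _)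
  · have h1 : L - l₀ - 502 * (e * L) - 3 * p ≤ 2 * (j * p) := by linarith
    have h2 := mul_le_mul_of_nonneg_left h1 hw0
    have h3 : w * (e * L) ≤ e * L / 2 := by nlinarith
    have h4 : w * p ≤ p / 2 := by nlinarith
    nlinarith

/-- Short sums (`l₀ ≤ L = log U`), `p = log P`, `P' = P^{1+e}`.  `j = 0` if `w = 0`, else
`j = ⌊min (L - l₀) (L/2) / (2 (1+e) p)⌋₊ ≤ 1/σ`; take the maximum of the constants of `StM1` over
`j ≤ ⌈1/σ⌉₊` (`ε = σ e`).  `StM1` with `N = exp l₀`, `P := P'`, all `ω i = ω` from `k_trunc_PP`;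
`k_count` with `p = 2`, `W u = ‖∑ ω sx‖^{2j} ≥ (P^{1/2+w}/2)^{2j}`.  Exponent:
`15 e L + 2 C₀' p + L + (1 - 2b) l₀ - 2 w j p + e j p`, `e j p ≤ e L`,
`2 j p ≥ L - l₀ - 502 e L - 2 p` when `w ≠ 0`. -/
theorem countM_short (h1 : StM1) : ∃ C₀ : ℝ, 0 ≤ C₀ ∧ ∀ (q : O) (a σ e : ℝ), Lev q → 0 < a →
    0 < σ → 0 < e → e ≤ 1 / 1000 → ∃ C : ℝ, 0 ≤ C ∧
    ∀ (ψ : O → ℂ) (Z U P T b w τ l₀ : ℝ) (A : Finset O), IsTw q ψ → C ≤ Z → Z ^ σ ≤ P →
    Z ^ σ ≤ U → U ≤ Z → 0 ≤ T → 0 ≤ w → w ≤ 1 / 2 → 0 ≤ l₀ →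
    (1 / 2 - 501 * e) * Real.log U ≤ l₀ → l₀ ≤ Real.log U →
    (∀ u ∈ A, nm u ≤ U ∧ (∃ l t, l₀ ≤ l ∧ l ≤ l₀ + 1 ∧ |t| ≤ T ∧
      Real.exp (b * l₀ - 7 * e * Real.log U) ≤ ‖MS (rc ψ u) (a / 2) (Real.exp l) t‖) ∧
      (w = 0 ∨ P ^ (1 / 2 + w) ≤ ‖PP (rc (one q) u) a P τ‖)) →
    (A.card : ℝ) ≤ C * (1 + T) ^ C * P ^ C₀ *
      Real.exp ((1 + C₀ * e) * Real.log U - (2 * b - 1) * l₀ - w * (Real.log U - l₀)) := by
  obtain ⟨C₁, H1⟩ := h1
  refine ⟨2 * |C₁| + 300, by positivity, ?_⟩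
  intro q a σ e hq ha hσ he he'
  choose Cf hCf using fun j : ℕ => H1 q a (σ * e) j hq ha (mul_pos hσ he)
  obtain ⟨P₀, hP₀, hT⟩ := k_trunc_PP q ha he
  set J := ⌈1 / σ⌉₊ with hJ
  set Cs : ℝ := ∑ j ∈ Finset.range (J + 1), |Cf j| with hCs
  have hCs0 : 0 ≤ Cs := Finset.sum_nonneg fun _ _ => abs_nonneg _
  have hCsj : ∀ j ≤ J, Cf j ≤ Cs := fun j hj =>
    (le_abs_self _).trans (Finset.single_le_sum (f := fun j => |Cf j|)
      (fun _ _ => abs_nonneg _) (Finset.mem_range.2 (Nat.lt_succ_of_le hj)))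
  obtain ⟨Ck, hCk, hcount⟩ := k_count (a₀ := a / 2) (a := a) (E := Cs) (half_pos ha)
    (half_lt_self ha) hCs0 (p := 2) one_le_two
  have hP₀' : 0 ≤ P₀ ^ (1 / σ) := Real.rpow_nonneg (by linarith) _
  have hK0 : 0 ≤ Ck * Cs * 4 ^ J := by positivity
  refine ⟨2 + P₀ ^ (1 / σ) + Ck * Cs * 4 ^ J + Ck, by positivity, ?_⟩
  intro ψ Z U P T b w τ l₀ A hψ hZ hP hU hUZ hT0 hw0 hw hl0 hl1 hl2 hA
  have hZ2 : 2 ≤ Z := by linarith
  have hZ0 : 0 < Z := by linarith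
  have hlz : 0 < Real.log Z := Real.log_pos (by linarith)
  have hZσ : Z ^ σ = Real.exp (σ * Real.log Z) := by
    rw [Real.rpow_def_of_pos hZ0, mul_comm]
  have hZσ1 : 1 ≤ Z ^ σ := Real.one_le_rpow (by linarith) hσ.le
  have hP1 : 1 ≤ P := hZσ1.trans hP
  have hU1 : 1 ≤ U := hZσ1.trans hU
  have hPpos : 0 < P := by linarith
  have hUpos : 0 < U := by linarith
  have hPP₀ : P₀ ≤ P := by
    refine le_trans ?_ hP
    have h : P₀ ^ (1 / σ) ≤ Z := by linarith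
    have := Real.rpow_le_rpow hP₀' h hσ.le
    rwa [← Real.rpow_mul (by linarith), one_div_mul_cancel hσ.ne', Real.rpow_one] at this
  set L := Real.log U with hL
  set p := Real.log P with hp
  have hUe : U = Real.exp L := (Real.exp_log hUpos).symm
  have hPe : ∀ x : ℝ, P ^ x = Real.exp (x * p) := fun x => by
    rw [Real.rpow_def_of_pos hPpos, mul_comm]
  have hL0 : 0 ≤ L := Real.log_nonneg hU1
  have hp0 : 0 ≤ p := Real.log_nonneg hP1
  have hσp : σ * Real.log Z ≤ p := by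
    rw [hZσ] at hP
    exact (Real.le_log_iff_exp_le hPpos).2 hP
  have hσL : σ * Real.log Z ≤ L := by
    rw [hZσ] at hU
    exact (Real.le_log_iff_exp_le hUpos).2 hU
  have hLZ : L ≤ Real.log Z := Real.log_le_log hUpos hUZ
  obtain ⟨j, hjJ, hj0, hj1, hj2, hj3⟩ := cntMb_slots hσ he he' hlz hσp hLZ hL0 hw0 hw hl1 hl2
  obtain ⟨Ps, ω, hPs, hω, hS⟩ := hT P τ hPP₀
  have hpow : ∀ n : ℕ, (P ^ (1 + e)) ^ n = Real.exp (n * ((1 + e) * p)) := fun n => by
    rw [hPe, ← Real.exp_nat_mul]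
  have key := hcount A (fun u n => mu n * rc ψ u n)
    (fun u => ‖∑ p ∈ Ps, ω p * sx u p‖ ^ (2 * j)) l₀ T
    (Real.exp (b * l₀ - 7 * e * L) ^ 2 * (P ^ (1 / 2 + w) / 2) ^ (2 * j))
    (Cs * Real.exp (e * L + 2 * |C₁| * p + (L + l₀ + j * ((1 + e) * p)))) hT0 (by positivity)
    (fun u _ n => k_norm_mu_mul_le (k_norm_rc_le hq hψ u) n) (fun u _ => by positivity)
    (fun u hu => by
      obtain ⟨-, ⟨l, t, h1, h2, h3, h4⟩, h5⟩ := hA u hu
      refine ⟨l, t, h1, h2, h3, ?_⟩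
      rw [← k_MS_eq]
      refine mul_le_mul (pow_le_pow_left₀ (Real.exp_pos _).le h4 2) ?_ (by positivity)
        (by positivity)
      rcases h5 with h5 | h5
      · rw [hj0 h5]
        simp
      · refine pow_le_pow_left₀ (by positivity) ?_ _
        have h6 := hS u
        have h7 := norm_sub_norm_le (PP (rc (one q) u) a P τ) (∑ p ∈ Ps, ω p * sx u p)
        have h8 : P ^ (1 / 2 : ℝ) ≤ P ^ (1 / 2 + w) :=
          Real.rpow_le_rpow_of_exponent_le hP1 (by linarith)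
        linarith)
    (fun t' => by
      have h := hCf j ψ Z U (Real.exp l₀) (P ^ (1 + e)) t' Ps A (fun _ => ω) hψ
        (Real.one_le_exp hl0) (Real.one_le_rpow hP1 (by linarith))
        (by
          rw [hpow, ← Real.exp_add, hUe]
          refine Real.exp_le_exp.2 ?_
          push_cast
          exact hj1)
        (by
          rw [hpow, hUe]
          refine Real.exp_le_exp.2 ?_
          push_cast
          exact hj2)
        hUZ hPs (fun _ => hω) (fun k hk => (hA k hk).1)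
      have e1 : ∀ u : O, ‖PS (fun n => mu n * rc ψ u n) a (Real.exp l₀) t'‖ ^ 2 *
          ‖∑ p ∈ Ps, ω p * sx u p‖ ^ (2 * j) =
          ‖MS (rc ψ u) a (Real.exp l₀) t' * ∏ _i : Fin j, ∑ p ∈ Ps, ω p * sx u p‖ ^ 2 := by
        intro u
        rw [Finset.prod_const, Finset.card_univ, Fintype.card_fin, norm_mul, norm_pow, mul_pow,
          ← pow_mul, mul_comm j 2, k_MS_eq]
      simp only [e1]
      refine h.trans ?_
      have h1t : 1 ≤ 1 + |t'| := by linarith [abs_nonneg t']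
      have b1 : Z ^ (σ * e) ≤ Real.exp (e * L) := by
        rw [Real.rpow_def_of_pos hZ0]
        refine Real.exp_le_exp.2 ?_
        nlinarith
      have b2 : (P ^ (1 + e)) ^ C₁ ≤ Real.exp (2 * |C₁| * p) := by
        rw [← Real.rpow_mul hPpos.le, hPe]
        refine Real.exp_le_exp.2 (mul_le_mul_of_nonneg_right ?_ hp0)
        have := le_abs_self C₁
        have := abs_nonneg C₁
        nlinarith
      have b3 : (1 + |t'|) ^ Cf j ≤ (1 + |t'|) ^ Cs :=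
        Real.rpow_le_rpow_of_exponent_le h1t (hCsj j hjJ)
      have b4 : U * Real.exp l₀ * (P ^ (1 + e)) ^ j =
          Real.exp (L + l₀ + j * ((1 + e) * p)) := by
        rw [hpow, Real.exp_add, Real.exp_add, ← hUe]
      rw [b4, Real.exp_add (e * L + 2 * |C₁| * p), Real.exp_add (e * L)]
      calc Cf j * Z ^ (σ * e) * (P ^ (1 + e)) ^ C₁ * (1 + |t'|) ^ Cf j *
            Real.exp (L + l₀ + j * ((1 + e) * p))
          = Cf j * (Z ^ (σ * e) * (P ^ (1 + e)) ^ C₁ * (1 + |t'|) ^ Cf j *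
            Real.exp (L + l₀ + j * ((1 + e) * p))) := by ring
        _ ≤ Cs * (Real.exp (e * L) * Real.exp (2 * |C₁| * p) * (1 + |t'|) ^ Cs *
            Real.exp (L + l₀ + j * ((1 + e) * p))) := by
          refine mul_le_mul (hCsj j hjJ) ?_ (by positivity) hCs0
          gcongr
        _ = _ := by ring)
  have eV : Real.exp (b * l₀ - 7 * e * L) ^ 2 * (P ^ (1 / 2 + w) / 2) ^ (2 * j) =
      Real.exp (2 * (b * l₀ - 7 * e * L) + (1 + 2 * w) * (j * p)) / 4 ^ j := by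
    rw [div_pow, hPe, ← Real.exp_nat_mul, ← Real.exp_nat_mul, Real.exp_add, pow_mul]
    have : (2 : ℝ) ^ 2 = 4 := by norm_num
    rw [this, mul_div_assoc]
    congr 3
    push_cast
    ring
  rw [eV, ← mul_div_assoc, div_le_iff₀ (by positivity), ← le_div_iff₀ (Real.exp_pos _)] at key
  refine key.trans ?_
  have h4 : (4 : ℝ) ^ j ≤ 4 ^ J := pow_le_pow_right₀ (by norm_num) hjJ
  have hT1 : 1 ≤ 1 + T := by linarith
  have bT : (1 + T) ^ Ck ≤ (1 + T) ^ (2 + P₀ ^ (1 / σ) + Ck * Cs * 4 ^ J + Ck) :=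
    Real.rpow_le_rpow_of_exponent_le hT1 (by linarith)
  have bE : Real.exp (e * L + 2 * |C₁| * p + (L + l₀ + j * ((1 + e) * p))) /
      Real.exp (2 * (b * l₀ - 7 * e * L) + (1 + 2 * w) * (j * p)) ≤
      P ^ (2 * |C₁| + 300) *
        Real.exp ((1 + (2 * |C₁| + 300) * e) * L - (2 * b - 1) * l₀ - w * (L - l₀)) := by
    rw [hPe, ← Real.exp_sub, ← Real.exp_add]
    refine Real.exp_le_exp.2 ?_
    have h5 : 0 ≤ e * L := mul_nonneg he.le hL0
    have h6 : 0 ≤ |C₁| * (e * L) := mul_nonneg (abs_nonneg _) h5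
    linarith [hj3, h5, h6, hp0]
  calc Ck * (1 + T) ^ Ck *
        (Cs * Real.exp (e * L + 2 * |C₁| * p + (L + l₀ + j * ((1 + e) * p)))) * 4 ^ j /
        Real.exp (2 * (b * l₀ - 7 * e * L) + (1 + 2 * w) * (j * p))
      = (Ck * Cs * 4 ^ j) * (1 + T) ^ Ck *
        (Real.exp (e * L + 2 * |C₁| * p + (L + l₀ + j * ((1 + e) * p))) /
        Real.exp (2 * (b * l₀ - 7 * e * L) + (1 + 2 * w) * (j * p))) := by ring
    _ ≤ (2 + P₀ ^ (1 / σ) + Ck * Cs * 4 ^ J + Ck) *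
        (1 + T) ^ (2 + P₀ ^ (1 / σ) + Ck * Cs * 4 ^ J + Ck) * (P ^ (2 * |C₁| + 300) *
        Real.exp ((1 + (2 * |C₁| + 300) * e) * L - (2 * b - 1) * l₀ - w * (L - l₀))) := by
      have h5 : Ck * Cs * 4 ^ j ≤ Ck * Cs * 4 ^ J :=
        mul_le_mul_of_nonneg_left h4 (mul_nonneg hCk hCs0)
      refine mul_le_mul (mul_le_mul (by linarith) bT (by positivity) (by positivity)) bE
        (by positivity) (by positivity)
    _ = _ := by ring

end Crest.Agent.R17
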