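import Crest.Agent.R17.K.Sup

/-!
Row 17, block K: counting rows with a large plain sum.
-/

set_option autoImplicit false

namespace Crest.Agent.R17

theorem cnts_j {σ e κ w L p z l₀ : ℝ} (hσ : 0 < σ) (he : 0 < e) (he' : e ≤ 1 / 1000)
    (hκ : 3 / 4 ≤ κ) (hz : 0 < z) (hp : σ * z ≤ p) (hL0 : 0 ≤ L) (hL : L ≤ z) (hw : 0 ≤ w)
    (hw' : w ≤ 1 / 2) (hl : 0 ≤ l₀) (hl' : l₀ ≤ (1 / 2 + 500 * e) * L) :
    ∃ j : ℕ, j ≤ ⌈1 / σ⌉₊ ∧ (w = 0 → j = 0) ∧
      2 * l₀ + 6 * (κ + e) * j * p ≤ (1 + 1000 * e) * L ∧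
      w * (L - 2 * l₀) / (3 * κ) ≤ 2 * w * j * p + p := by
  have hp0 : 0 < p := lt_of_lt_of_le (by positivity) hp
  by_cases h0 : w = 0
  · refine ⟨0, Nat.zero_le _, fun _ => rfl, by simp only [Nat.cast_zero]; linarith, ?_⟩
    simp [h0, hp0.le]
  set X := (1 + 1000 * e) * L - 2 * l₀ with hX
  have hX0 : 0 ≤ X := by linarith
  have hD : 0 < 6 * (κ + e) * p := by positivity
  have h1 := Nat.floor_le (div_nonneg hX0 hD.le)
  have h2 := Nat.lt_floor_add_one (X / (6 * (κ + e) * p))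
  generalize ⌊X / (6 * (κ + e) * p)⌋₊ = j at h1 h2
  rw [le_div_iff₀ hD] at h1
  rw [div_lt_iff₀ hD] at h2
  have hj0 : (0 : ℝ) ≤ j := Nat.cast_nonneg j
  have heL : e * L ≤ 1 / 1000 * L := mul_le_mul_of_nonneg_right he' hL0
  refine ⟨j, ?_, fun h => absurd h h0, by linarith, ?_⟩
  · have h3 : (j : ℝ) ≤ 1 / σ := by
      rw [le_div_iff₀ hσ]
      refine le_of_mul_le_mul_right ?_ hz
      have a1 : (j : ℝ) * (σ * z) ≤ j * p := mul_le_mul_of_nonneg_left hp hj0
      have a2 : (j : ℝ) * p * (3 / 4) ≤ j * p * (κ + e) :=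
        mul_le_mul_of_nonneg_left (by linarith) (by positivity)
      nlinarith
    exact_mod_cast h3.trans (Nat.le_ceil _)
  · have h3 : (L - 2 * l₀) / (3 * κ) ≤ 2 * (j + 1) * p := by
      rw [div_le_iff₀ (by positivity)]
      refine le_of_mul_le_mul_right ?_ (show 0 < κ + e by positivity)
      have a1 : κ * X ≤ κ * ((j + 1) * (6 * (κ + e) * p)) :=
        mul_le_mul_of_nonneg_left h2.le (by positivity)
      have a2 : 3 / 4 * (e * L) ≤ κ * (e * L) := mul_le_mul_of_nonneg_right hκ (by positivity)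
      have a3 : 0 ≤ e * l₀ := by positivity
      have a4 : 0 ≤ e * L := by positivity
      rw [hX] at a1
      nlinarith
    have h4 := mul_le_mul_of_nonneg_left h3 hw
    have h5 := mul_le_mul_of_nonneg_right hw' hp0.le
    rw [mul_div_assoc]
    linarith

/-- `L = log U`, `p = log P`, `κ = 2β - 1`, `κ' = κ + e`.  `StM2` with `Z := Z²`, `σ := σ/2`,
`ε = σ e / 2`, `U := U^{1 + 1000 e} ≤ Z²`, `N₁ = N₂ = exp l₀`, `ψ₁ = ψ₂ = ψ`, `t₁ = t₂ = t'`, all slots
`one q` at height `τ`; `j = 0` if `w = 0`, else `j = ⌊X / (6 κ' p)⌋₊ ≤ 1/σ`,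
`X = (1 + 1000 e) L - 2 l₀ ≥ 0`; maximum of the constants over `j ≤ ⌈1/σ⌉₊`;
`1 + 2|t'| + j|τ| ≤ (1 + |t'|) (2 + j) (1 + |τ|)`.  `k_count` with `p = 4`,
`W u = ‖PP‖^{2j} ≥ P^{(1 + 2w) j}`.  Exponent: `1029 e L + C₀' p + L - 2 (2b - 1) l₀ - 2 w j p`, and
`2 j p ≥ X / (3κ') - 2p ≥ (L - 2 l₀) / (3κ) - 2 e L - 2 p` when `w ≠ 0`. -/
theorem countS (h3 : StM2) : ∃ C₀ : ℝ, 0 ≤ C₀ ∧ ∀ β : ℝ, 7 / 8 ≤ β → β ≤ 1 → ZF β →
    ∀ (q : O) (a σ e : ℝ), Lev q → 0 < a → 0 < σ → 0 < e → e ≤ 1 / 1000 → ∃ C : ℝ, 0 ≤ C ∧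
    ∀ (ψ : O → ℂ) (Z U P T b w τ l₀ : ℝ) (A : Finset O), IsTw q ψ → 2 ≤ Z → Z ^ σ ≤ P →
    Z ^ σ ≤ U → U ≤ Z → 0 ≤ T → 0 ≤ w → w ≤ 1 / 2 → 0 ≤ l₀ →
    l₀ ≤ (1 / 2 + 500 * e) * Real.log U →
    (∀ u ∈ A, u ≠ 0 ∧ ¬ Exc q u ∧ nm u ≤ U ∧ (∃ l t, l₀ ≤ l ∧ l ≤ l₀ + 1 ∧ |t| ≤ T ∧
      Real.exp (b * l₀ - 7 * e * Real.log U) ≤ ‖PS (rc ψ u) (a / 2) (Real.exp l) t‖) ∧
      (w = 0 ∨ P ^ (1 / 2 + w) ≤ ‖PP (rc (one q) u) a P τ‖)) →
    (A.card : ℝ) ≤ C * (1 + T) ^ C * (1 + |τ|) ^ C * P ^ C₀ *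
      Real.exp ((1 + C₀ * e) * Real.log U - 2 * (2 * b - 1) * l₀ -
        w * (Real.log U - 2 * l₀) / (3 * (2 * β - 1))) := by
  obtain ⟨C₀, h3⟩ := h3
  refine ⟨|C₀| + 1029, by positivity, fun β hβ hβ' hZF q a σ e hq ha hσ he he' => ?_⟩
  choose Cj hCj using fun j : ℕ => h3 β hβ hβ' hZF q a (σ / 2) e (σ * e / 2) j hq ha
    (by positivity) he (by positivity)
  set J := ⌈1 / σ⌉₊ with hJ
  set C₂ := ∑ j ∈ Finset.range (J + 1), |Cj j| with hC₂
  have hC₂0 : 0 ≤ C₂ := Finset.sum_nonneg fun _ _ => abs_nonneg _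
  have hle : ∀ j ≤ J, Cj j ≤ C₂ := fun j hj => (le_abs_self _).trans
    (Finset.single_le_sum (f := fun j => |Cj j|) (fun _ _ => abs_nonneg _)
      (Finset.mem_range.2 (by omega)))
  obtain ⟨C₃, hC₃, h4⟩ := k_count (a₀ := a / 2) (a := a) (by positivity) (by linarith) hC₂0
    (p := 4) (by norm_num)
  clear_value C₂
  have hK : 0 ≤ C₃ * C₂ * (2 + J : ℝ) ^ C₂ := by positivity
  refine ⟨C₃ * C₂ * (2 + J : ℝ) ^ C₂ + C₃ + C₂, by positivity, ?_⟩
  intro ψ Z U P T b w τ l₀ A hψ hZ hP hU hUZ hT hw hw' hl hl' hA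
  have hZ0 : 0 < Z := by linarith
  have hZσ : 1 ≤ Z ^ σ := Real.one_le_rpow (by linarith) hσ.le
  have hU1 : 1 ≤ U := hZσ.trans hU
  have hP1 : 1 ≤ P := hZσ.trans hP
  have hU0 : 0 < U := by linarith
  have hP0 : 0 < P := by linarith
  have hz : 0 < Real.log Z := Real.log_pos (by linarith)
  have hp : σ * Real.log Z ≤ Real.log P := by
    rw [← Real.log_rpow hZ0]; exact Real.log_le_log (by linarith) hP
  have hL' : σ * Real.log Z ≤ Real.log U := by
    rw [← Real.log_rpow hZ0]; exact Real.log_le_log (by linarith) hU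
  have hL0 : 0 ≤ Real.log U := Real.log_nonneg hU1
  have hp0 : 0 ≤ Real.log P := Real.log_nonneg hP1
  have hL : Real.log U ≤ Real.log Z := Real.log_le_log hU0 hUZ
  obtain ⟨j, hj, hj0, hj1, hj2⟩ := cnts_j (κ := 2 * β - 1) hσ he he' (by linarith) hz hp hL0 hL
    hw hw' hl hl'
  have eP : ∀ x, P ^ x = Real.exp (x * Real.log P) := fun x => by
    rw [Real.rpow_def_of_pos hP0, mul_comm]
  have eZ : ∀ x, (Z ^ 2) ^ x = Real.exp (x * (2 * Real.log Z)) := fun x => by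
    rw [Real.rpow_def_of_pos (by positivity), mul_comm, Real.log_pow, Nat.cast_ofNat]
  have eU : U = Real.exp (Real.log U) := (Real.exp_log hU0).symm
  have heL : e * Real.log U ≤ 1 / 1000 * Real.log U := mul_le_mul_of_nonneg_right he' hL0
  have heL0 : 0 ≤ e * Real.log U := by positivity
  have key := h4 A (fun u => rc ψ u) (fun u => ‖PP (rc (one q) u) a P τ‖ ^ (2 * j)) l₀ T
    (Real.exp (4 * (b * l₀ - 7 * e * Real.log U) + (1 + 2 * w) * j * Real.log P))
    (C₂ * (2 + J : ℝ) ^ C₂ * (1 + |τ|) ^ C₂ * Real.exp (e * Real.log U + |C₀| * Real.log P +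
      ((1 + 1000 * e) * Real.log U + l₀ + l₀ + j * Real.log P))) hT (by positivity)
    (fun u _ n => k_norm_rc_le hq hψ u n) (fun u _ => by positivity) (fun u hu => by
      obtain ⟨-, -, -, ⟨l, t, a1, a2, a3, a4⟩, a5⟩ := hA u hu
      refine ⟨l, t, a1, a2, a3, ?_⟩
      rw [Real.exp_add]
      refine mul_le_mul ?_ ?_ (Real.exp_pos _).le (by positivity)
      · rw [show (4 : ℝ) = (4 : ℕ) by norm_num, Real.exp_nat_mul]
        exact pow_le_pow_left₀ (Real.exp_pos _).le a4 4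
      · rcases a5 with a5 | a5
        · simp [hj0 a5]
        · refine le_trans (le_of_eq ?_) (pow_le_pow_left₀ (by positivity) a5 (2 * j))
          rw [eP, ← Real.exp_nat_mul]
          congr 1
          push_cast
          ring) (fun t => by
      have b1 := hCj j ψ ψ (fun _ => one q) (Z ^ 2) (Real.exp ((1 + 1000 * e) * Real.log U))
        (Real.exp l₀) (Real.exp l₀) P t t (fun _ => τ) A hψ hψ (fun _ => k_isTw_one q)
        (by nlinarith) (by
          rw [eZ, ← Real.exp_log hP0]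
          exact Real.exp_le_exp.2 (by linarith)) (Real.one_le_exp hl) (Real.one_le_exp hl) (by
          rw [eP, ← Real.exp_add, ← Real.exp_add]
          exact Real.exp_le_exp.2 (by linarith)) (by
          rw [← Real.rpow_one (Z ^ 2), eZ]
          exact Real.exp_le_exp.2 (by linarith)) (fun k hk => ⟨(hA k hk).1, (hA k hk).2.1,
            (hA k hk).2.2.1.trans (eU.trans_le (Real.exp_le_exp.2 (by linarith)))⟩)
      refine le_trans (le_of_eq (Finset.sum_congr rfl fun u _ => ?_)) (b1.trans ?_)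
      · rw [Finset.prod_const, Finset.card_univ, Fintype.card_fin, norm_mul, norm_mul, norm_pow]
        ring
      · rw [Finset.sum_const, Finset.card_univ, Fintype.card_fin, nsmul_eq_mul]
        have c0 := abs_nonneg t
        have c0' := abs_nonneg τ
        have c1 : (j : ℝ) ≤ J := by exact_mod_cast hj
        have c1' : (0 : ℝ) ≤ j := Nat.cast_nonneg j
        have c2 : (1 + |t| + |t| + j * |τ|) ^ Cj j ≤
            (2 + J : ℝ) ^ C₂ * (1 + |τ|) ^ C₂ * (1 + |t|) ^ C₂ := by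
          rw [← Real.mul_rpow (by positivity) (by positivity),
            ← Real.mul_rpow (by positivity) (by positivity)]
          refine (Real.rpow_le_rpow_of_exponent_le (by nlinarith) (hle j hj)).trans
            (Real.rpow_le_rpow (by positivity) ?_ hC₂0)
          have d1 : (j : ℝ) * |τ| ≤ J * |τ| := mul_le_mul_of_nonneg_right c1 c0'
          have d2 : 0 ≤ (J : ℝ) * |t| := by positivity
          have d3 : 0 ≤ (J : ℝ) * |τ| * |t| := by positivity
          have d4 : 0 ≤ |τ| * |t| := by positivity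
          nlinarith
        have c3 : (Z ^ 2) ^ (σ * e / 2) ≤ Real.exp (e * Real.log U) := by
          rw [eZ]
          exact Real.exp_le_exp.2 (by nlinarith)
        have c4 : P ^ C₀ ≤ Real.exp (|C₀| * Real.log P) := by
          rw [← eP]
          exact Real.rpow_le_rpow_of_exponent_le hP1 (le_abs_self _)
        have c5 : P ^ j = Real.exp (j * Real.log P) := by rw [← eP, Real.rpow_natCast]
        rw [c5]
        calc _ ≤ C₂ * Real.exp (e * Real.log U) * Real.exp (|C₀| * Real.log P) *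
              ((2 + J : ℝ) ^ C₂ * (1 + |τ|) ^ C₂ * (1 + |t|) ^ C₂) *
              (Real.exp ((1 + 1000 * e) * Real.log U) * Real.exp l₀ * Real.exp l₀ *
                Real.exp (j * Real.log P)) := by
              gcongr
              exact hle j hj
          _ = _ := by
              simp only [Real.exp_add]
              ring)
  rw [← le_div_iff₀ (Real.exp_pos _)] at key
  refine key.trans ?_
  rw [mul_div_assoc, mul_div_assoc, ← Real.exp_sub, eP, mul_assoc _ (Real.exp _), ← Real.exp_add]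
  have c0 := abs_nonneg τ
  have c1 := abs_nonneg C₀
  calc _ = C₃ * C₂ * (2 + J : ℝ) ^ C₂ * (1 + T) ^ C₃ * (1 + |τ|) ^ C₂ * Real.exp _ := by ring
    _ ≤ _ := by
      gcongr
      · linarith
      · linarith
      · linarith
      · linarith
      · linarith
      · nlinarith [mul_nonneg c1 heL0]

end Crest.Agent.R17
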