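import Crest.Agent.R17.K.Mob

/-!
Row 17, block K: `∬_{l + l' ≤ τ} M(l) S(l') = GG (-τ)` (Möbius inversion).
-/

set_option autoImplicit false

namespace Crest.Agent.R17

open MeasureTheory Set

theorem kca_tail_nonneg (a β x : ℝ) : 0 ≤ ∫ ξ in Ici x, kk a β ξ :=
  integral_nonneg fun ξ => (kk_pos a β ξ).le

theorem kca_tail_anti {a : ℝ} (ha : 0 < a) (β : ℝ) :
    Antitone fun x => ∫ ξ in Ici x, kk a β ξ := fun _ _ hxy =>
  setIntegral_mono_set (integrable_kk ha β).integrableOn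
    (Filter.Eventually.of_forall fun ξ => (kk_pos a β ξ).le) (Ici_subset_Ici.2 hxy).eventuallyLE

theorem kca_tail_le_total {a : ℝ} (ha : 0 < a) (β x : ℝ) :
    ∫ ξ in Ici x, kk a β ξ ≤ ∫ ξ, kk a β ξ :=
  setIntegral_le_integral (integrable_kk ha β)
    (Filter.Eventually.of_forall fun ξ => (kk_pos a β ξ).le)

theorem kca_reflect (g : ℝ → ℝ) (c y : ℝ) :
    ∫ l in Iic y, g (c - l) = ∫ ξ in Ici (c - y), g ξ := by
  rw [← integral_indicator measurableSet_Iic, ← integral_indicator measurableSet_Ici,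
    ← integral_sub_left_eq_self ((Ici (c - y)).indicator g) volume c]
  congr 1
  funext l
  by_cases h : l ≤ y
  · rw [indicator_of_mem (mem_Iic.2 h), indicator_of_mem (mem_Ici.2 (by linarith))]
  · rw [indicator_of_notMem (fun h' => h (mem_Iic.1 h')),
      indicator_of_notMem (fun h' => h (by have := mem_Ici.1 h'; linarith))]

theorem kca_countable : Countable Pr := by
  have h := (k_summable_rpow (s := 2) one_lt_two).countable_support
  rw [← Set.countable_univ_iff]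
  refine h.mono fun n _ => ?_
  exact (Real.rpow_pos_of_pos (one_pos.trans_le (k_one_le_nm n)) _).ne'

theorem GG_nonneg (a β z : ℝ) : 0 ≤ GG a β z := by
  exact integral_nonneg fun s => mul_nonneg (kk_pos a β s).le (kca_tail_nonneg a β _)

/-- Chernoff: `∫_{ξ ≥ x} kk ξ ≤ e^{-D x} ∫ kk a (β + D)` for `D ≥ 0`. -/
theorem kk_tail_le {a : ℝ} (ha : 0 < a) (β x : ℝ) {D : ℝ} (hD : 0 ≤ D) :
    ∫ ξ in Ici x, kk a β ξ ≤ Real.exp (-(D * x)) * ∫ ξ, kk a (β + D) ξ := by
  calc ∫ ξ in Ici x, kk a β ξ ≤ ∫ ξ in Ici x, Real.exp (-(D * x)) * kk a (β + D) ξ := by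
        refine setIntegral_mono_on (integrable_kk ha β).integrableOn
          ((integrable_kk ha _).const_mul _).integrableOn measurableSet_Ici fun ξ hξ => ?_
        rw [← kk_mul_exp, mul_left_comm, ← Real.exp_add]
        refine le_mul_of_one_le_right (kk_pos a β ξ).le (Real.one_le_exp ?_)
        have := mul_le_mul_of_nonneg_left (mem_Ici.1 hξ) hD
        linarith
    _ ≤ Real.exp (-(D * x)) * ∫ ξ, kk a (β + D) ξ := by
        rw [integral_const_mul]
        exact mul_le_mul_of_nonneg_left (kca_tail_le_total ha _ _) (Real.exp_pos _).le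

theorem integrable_GG {a : ℝ} (ha : 0 < a) (β z : ℝ) :
    Integrable fun s => kk a β s * ∫ ξ in Ici (z - s), kk a β ξ := by
  have hm : Measurable fun s => ∫ ξ in Ici (z - s), kk a β ξ :=
    (kca_tail_anti ha β).measurable.comp (measurable_const.sub measurable_id)
  refine ((integrable_kk ha β).mul_const (∫ ξ, kk a β ξ)).mono'
    ((integrable_kk ha β).aestronglyMeasurable.mul hm.aestronglyMeasurable)
    (Filter.Eventually.of_forall fun s => ?_)
  rw [Real.norm_of_nonneg (mul_nonneg (kk_pos a β s).le (kca_tail_nonneg a β _))]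
  exact mul_le_mul_of_nonneg_left (kca_tail_le_total ha _ _) (kk_pos a β s).le

theorem GG_le {a : ℝ} (ha : 0 < a) (β z : ℝ) {D : ℝ} (hD : 0 ≤ D) :
    GG a β z ≤ Real.exp (-(D * z)) * (∫ ξ, kk a (β + D) ξ) ^ 2 := by
  calc GG a β z ≤ ∫ s, (Real.exp (-(D * z)) * ∫ ξ, kk a (β + D) ξ) * kk a (β + D) s := by
        refine integral_mono (integrable_GG ha β z) ((integrable_kk ha _).const_mul _) fun s => ?_
        refine (mul_le_mul_of_nonneg_left (kk_tail_le ha β (z - s) hD) (kk_pos a β s).le).trans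
          (le_of_eq ?_)
        have e : Real.exp (-(D * (z - s))) = Real.exp (-(D * z)) * Real.exp (D * s) := by
          rw [← Real.exp_add]; congr 1; ring
        show _ = _ * kk a (β + D) s
        rw [e, ← kk_mul_exp a β D s]
        ring
    _ = _ := by rw [integral_const_mul]; ring

/-- restrict to `s ≥ 0`, `ξ ≥ 0`, where `kk a β ≥ kk a 0`; `c = (∫_{Ici 0} kk a 0)²`. -/
theorem GG_lower {a : ℝ} (ha : 0 < a) : ∃ c : ℝ, 0 < c ∧
    ∀ β z : ℝ, 0 ≤ β → z ≤ 0 → c ≤ GG a β z := by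
  have hpos : 0 < ∫ ξ in Ici (0 : ℝ), kk a 0 ξ := by
    rw [setIntegral_pos_iff_support_of_nonneg_ae
      (Filter.Eventually.of_forall fun ξ => (kk_pos a 0 ξ).le) (integrable_kk ha 0).integrableOn]
    have : Function.support (kk a 0) = univ :=
      eq_univ_of_forall fun ξ => (kk_pos a 0 ξ).ne'
    rw [this, univ_inter]
    simp
  refine ⟨(∫ ξ in Ici (0 : ℝ), kk a 0 ξ) ^ 2, by positivity, fun β z hβ hz => ?_⟩
  have h1 : ∀ ξ ∈ Ici (0 : ℝ), kk a 0 ξ ≤ kk a β ξ := by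
    intro ξ hξ
    unfold kk
    have := mul_nonneg hβ (mem_Ici.1 hξ)
    exact Real.exp_le_exp.2 (by linarith)
  have h2 : ∫ ξ in Ici (0 : ℝ), kk a 0 ξ ≤ ∫ ξ in Ici (0 : ℝ), kk a β ξ :=
    setIntegral_mono_on (integrable_kk ha 0).integrableOn (integrable_kk ha β).integrableOn
      measurableSet_Ici h1
  calc (∫ ξ in Ici (0 : ℝ), kk a 0 ξ) ^ 2
      = ∫ s in Ici (0 : ℝ), kk a 0 s * ∫ ξ in Ici (0 : ℝ), kk a 0 ξ := by
        rw [integral_mul_const, sq]
    _ ≤ ∫ s in Ici (0 : ℝ), kk a β s * ∫ ξ in Ici (z - s), kk a β ξ := by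
        refine setIntegral_mono_on ((integrable_kk ha 0).mul_const _).integrableOn
          (integrable_GG ha β z).integrableOn measurableSet_Ici fun s hs => ?_
        refine mul_le_mul (h1 s hs) (h2.trans (kca_tail_anti ha β ?_)) hpos.le (kk_pos a β s).le
        have := mem_Ici.1 hs
        linarith
    _ ≤ GG a β z := setIntegral_le_integral (integrable_GG ha β z)
        (Filter.Eventually.of_forall fun s =>
          mul_nonneg (kk_pos a β s).le (kca_tail_nonneg a β _))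

/-- termwise integration (substitute `ξ = log N(n) - l`) -/
theorem k_int_Iic_Dk {a : ℝ} (ha : 0 < a) {f : O → ℂ} (hf : ∀ n, ‖f n‖ ≤ 1) {ρ : ℂ}
    (hρ : 0 ≤ ρ.re) (y : ℝ) :
    ∫ l in Iic y, Dk f a ρ l = ∑' n : Pr, f n * (nm n : ℂ) ^ (-ρ) *
      ((∫ ξ in Ici (Real.log (nm n) - y), kk a ρ.re ξ : ℝ) : ℂ) := by
  have := kca_countable
  have hpos : ∀ n : Pr, 0 < nm (n : O) := fun n => one_pos.trans_le (k_one_le_nm n)
  have hc : ∀ n : Pr, ‖f n * (nm n : ℂ) ^ (-ρ)‖ ≤ 1 := by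
    intro n
    rw [norm_mul, Complex.norm_cpow_eq_rpow_re_of_pos (hpos n)]
    refine mul_le_one₀ (hf n) (Real.rpow_nonneg (hpos n).le _) ?_
    exact Real.rpow_le_one_of_one_le_of_nonpos (k_one_le_nm n) (by simpa using hρ)
  have hint : ∀ n : Pr, Integrable (fun l : ℝ => f n * (nm n : ℂ) ^ (-ρ) *
      (kk a ρ.re (Real.log (nm n) - l) : ℂ)) (volume.restrict (Iic y)) := fun n =>
    ((((integrable_kk ha ρ.re).comp_sub_left _).ofReal).const_mul _).integrableOn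
  have hsum : Summable fun n : Pr => ∫ l in Iic y, ‖f n * (nm n : ℂ) ^ (-ρ) *
      (kk a ρ.re (Real.log (nm n) - l) : ℂ)‖ := by
    refine Summable.of_nonneg_of_le (fun n => integral_nonneg fun l => norm_nonneg _) (fun n => ?_)
      ((k_summable_rpow (s := 2) one_lt_two).mul_left
        (Real.exp (2 * y) * ∫ ξ, kk a (ρ.re + 2) ξ))
    have e : ∀ l : ℝ, ‖f n * (nm n : ℂ) ^ (-ρ) * (kk a ρ.re (Real.log (nm n) - l) : ℂ)‖ =
        ‖f n * (nm n : ℂ) ^ (-ρ)‖ * kk a ρ.re (Real.log (nm n) - l) := by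
      intro l
      rw [norm_mul, Complex.norm_real, Real.norm_of_nonneg (kk_pos _ _ _).le]
    simp only [e]
    rw [integral_const_mul, kca_reflect (kk a ρ.re)]
    refine (mul_le_of_le_one_left (kca_tail_nonneg _ _ _) (hc n)).trans
      ((kk_tail_le ha _ _ zero_le_two).trans (le_of_eq ?_))
    rw [Real.rpow_def_of_pos (hpos n), mul_right_comm, ← Real.exp_add]
    congr 2
    ring
  simp only [k_Dk_eq]
  rw [← integral_tsum_of_summable_integral_norm hint hsum]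
  refine tsum_congr fun n => ?_
  rw [integral_const_mul, integral_complex_ofReal, kca_reflect (kk a ρ.re)]

theorem kcv_countable : Countable Pr := by
  have h : Countable O := by
    have := (Module.Free.chooseBasis ℤ O).equivFun.toEquiv
    exact (Equiv.countable_iff this).2 inferInstance
  infer_instance

theorem kcv_pos (n : Pr) : 0 < nm (n : O) := one_pos.trans_le (k_one_le_nm n)

theorem kcv_cpow_le {ρ : ℂ} (hρ : 0 ≤ ρ.re) (n : Pr) : ‖(nm (n : O) : ℂ) ^ (-ρ)‖ ≤ 1 := by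
  rw [Complex.norm_cpow_eq_rpow_re_of_pos (kcv_pos n), Complex.neg_re]
  exact Real.rpow_le_one_of_one_le_of_nonpos (k_one_le_nm n) (by linarith)

theorem kcv_exp (n : Pr) (y : ℝ) : Real.exp (-(2 * (Real.log (nm (n : O)) - y))) =
    Real.exp (2 * y) * nm (n : O) ^ (-2 : ℝ) := by
  rw [Real.rpow_def_of_pos (kcv_pos n), ← Real.exp_add]
  congr 1
  ring

theorem kcv_tail_nonneg (a β x : ℝ) : 0 ≤ ∫ ξ in Ici x, kk a β ξ :=
  integral_nonneg fun ξ => (kk_pos a β ξ).le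

theorem kcv_sumA {a : ℝ} (ha : 0 < a) {f : O → ℂ} (hf : ∀ n, ‖f n‖ ≤ 1) (ρ : ℂ) (l : ℝ) :
    Summable fun n : Pr =>
      ‖f n * (nm n : ℂ) ^ (-ρ) * (kk a ρ.re (Real.log (nm n) - l) : ℂ)‖ := by
  refine Summable.of_nonneg_of_le (fun _ => norm_nonneg _) (fun n => ?_)
    ((k_summable_LN ha l (-ρ.im)).mul_left ‖Complex.exp (-(ρ * l))‖)
  rw [mul_assoc, ← k_Dk_term a ρ l (kcv_pos n), norm_mul, ← norm_mul (Complex.exp _)]
  exact mul_le_of_le_one_left (norm_nonneg _) (hf n)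

theorem kcv_sumB {a : ℝ} (ha : 0 < a) {f : O → ℂ} (hf : ∀ n, ‖f n‖ ≤ 1) {ρ : ℂ} (hρ : 0 ≤ ρ.re)
    (y : ℝ) : Summable fun n : Pr => ‖f n * (nm n : ℂ) ^ (-ρ) *
      ((∫ ξ in Ici (Real.log (nm n) - y), kk a ρ.re ξ : ℝ) : ℂ)‖ := by
  refine Summable.of_nonneg_of_le (fun _ => norm_nonneg _) (fun n => ?_)
    (((k_summable_rpow one_lt_two).mul_left (Real.exp (2 * y))).mul_right
      (∫ ξ, kk a (ρ.re + 2) ξ))
  rw [← kcv_exp, norm_mul, norm_mul, Complex.norm_real,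
    Real.norm_of_nonneg (kcv_tail_nonneg _ _ _)]
  exact (mul_le_of_le_one_left (kcv_tail_nonneg _ _ _)
    (mul_le_one₀ (hf n) (norm_nonneg _) (kcv_cpow_le hρ n))).trans (kk_tail_le ha _ _ zero_le_two)

theorem kcv_sumG {a : ℝ} (ha : 0 < a) (β τ : ℝ) : Summable fun p : Pr × Pr =>
    GG a β (Real.log (nm (p.1 : O)) + Real.log (nm (p.2 : O)) - τ) := by
  have h := k_summable_rpow one_lt_two
  have h2 := h.mul_of_nonneg h (fun n => Real.rpow_nonneg (k_nm_nonneg _) _)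
    (fun n => Real.rpow_nonneg (k_nm_nonneg _) _)
  refine Summable.of_nonneg_of_le (fun _ => GG_nonneg _ _ _) (fun p => ?_)
    ((h2.mul_left (Real.exp (2 * τ))).mul_right ((∫ ξ, kk a (β + 2) ξ) ^ 2))
  refine (GG_le ha β _ zero_le_two).trans (le_of_eq ?_)
  rw [Real.rpow_def_of_pos (kcv_pos _), Real.rpow_def_of_pos (kcv_pos _), ← Real.exp_add,
    ← Real.exp_add]
  congr 2
  ring

theorem kcv_shift (a β x x' τ : ℝ) :
    (fun y => kk a β (x - (τ - y)) * ∫ ξ in Ici (x' - y), kk a β ξ) =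
      fun y => (fun s => kk a β s * ∫ ξ in Ici (x + x' - τ - s), kk a β ξ) (y + (x - τ)) := by
  funext y
  rw [show x - (τ - y) = y + (x - τ) by ring, show x' - y = x + x' - τ - (y + (x - τ)) by ring]

theorem kcv_int (a β x x' τ : ℝ) :
    ∫ y, kk a β (x - (τ - y)) * ∫ ξ in Ici (x' - y), kk a β ξ = GG a β (x + x' - τ) := by
  rw [kcv_shift, integral_add_right_eq_self
    (fun s => kk a β s * ∫ ξ in Ici (x + x' - τ - s), kk a β ξ)]
  rfl

theorem kcv_integrable {a : ℝ} (ha : 0 < a) (β x x' τ : ℝ) :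
    Integrable fun y => kk a β (x - (τ - y)) * ∫ ξ in Ici (x' - y), kk a β ξ := by
  rw [kcv_shift]
  exact (integrable_GG ha β (x + x' - τ)).comp_add_right (x - τ)

/-- For each `y` multiply the two series (`tsum_mul_tsum_of_summable_norm`), integrate termwise over
`Pr × Pr`: the term `(n, n')` gives `μ(n) F(n n')`,
`F m = χ m · N(m)^{-ρ} · GG a (Re ρ) (log N(m) - τ)` (substitute `s = log N(n) - τ + y`);
`‖F m‖ ≤ C N(m)^{-2}` by `GG_le` with `D = 2`; finish with `k_tsum_mu_mul`. -/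
theorem k_conv {a : ℝ} (ha : 0 < a) {χ : O → ℂ} (h1 : χ 1 = 1)
    (hmul : ∀ m n : Pr, χ ((m : O) * n) = χ m * χ n) (hχ : ∀ n, ‖χ n‖ ≤ 1) {ρ : ℂ}
    (hρ : 0 ≤ ρ.re) (τ : ℝ) :
    ∫ y, Dk (fun n => mu n * χ n) a ρ (τ - y) * ∫ l in Iic y, Dk χ a ρ l =
      (GG a ρ.re (-τ) : ℂ) := by
  have := kcv_countable
  obtain ⟨c, hc⟩ : ∃ c : Pr × Pr → ℂ, ∀ p, c p =
    mu p.1 * χ p.1 * (nm p.1 : ℂ) ^ (-ρ) * (χ p.2 * (nm p.2 : ℂ) ^ (-ρ)) := ⟨_, fun _ => rfl⟩
  have hc1 : ∀ p, ‖c p‖ ≤ 1 := fun p => by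
    rw [hc, norm_mul, norm_mul, norm_mul (χ _)]
    exact mul_le_one₀ (mul_le_one₀ (k_norm_mu_mul_le hχ _) (norm_nonneg _) (kcv_cpow_le hρ _))
      (by positivity) (mul_le_one₀ (hχ _) (norm_nonneg _) (kcv_cpow_le hρ _))
  obtain ⟨g, hg⟩ : ∃ g : Pr × Pr → ℝ → ℝ, ∀ p, g p = fun y =>
    kk a ρ.re (Real.log (nm p.1) - (τ - y)) * ∫ ξ in Ici (Real.log (nm p.2) - y), kk a ρ.re ξ :=
    ⟨_, fun _ => rfl⟩
  have hg0 : ∀ p y, 0 ≤ g p y := fun p y => by
    rw [hg]
    exact mul_nonneg (kk_pos _ _ _).le (kcv_tail_nonneg _ _ _)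
  have hgi : ∀ p, Integrable (g p) := fun p => by
    rw [hg]
    exact kcv_integrable ha _ _ _ _
  have hgG : ∀ p, ∫ y, g p y =
      GG a ρ.re (Real.log (nm (p.1 : O)) + Real.log (nm (p.2 : O)) - τ) := fun p => by
    rw [hg]
    exact kcv_int _ _ _ _ _
  have e1 : ∀ y, Dk (fun n => mu n * χ n) a ρ (τ - y) * ∫ l in Iic y, Dk χ a ρ l =
      ∑' p : Pr × Pr, c p * (g p y : ℂ) := fun y => by
    rw [k_Dk_eq, k_int_Iic_Dk ha hχ hρ, tsum_mul_tsum_of_summable_norm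
      (kcv_sumA ha (k_norm_mu_mul_le hχ) ρ _) (kcv_sumB ha hχ hρ y)]
    refine tsum_congr fun p => ?_
    rw [hc, hg]
    push_cast
    ring
  have hF : ∀ p : Pr × Pr, nm ((p.1 * p.2 : Pr) : O) = nm (p.1 : O) * nm (p.2 : O) :=
    fun p => k_nm_mul _ _
  have hL : ∀ p : Pr × Pr, Real.log (nm ((p.1 * p.2 : Pr) : O)) =
      Real.log (nm (p.1 : O)) + Real.log (nm (p.2 : O)) := fun p => by
    rw [hF, Real.log_mul (kcv_pos _).ne' (kcv_pos _).ne']
  have e2 := k_tsum_mu_mul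
    (fun m => χ m * (nm m : ℂ) ^ (-ρ) * (GG a ρ.re (Real.log (nm m) - τ) : ℂ))
    (Summable.of_nonneg_of_le (fun _ => norm_nonneg _) (fun p => by
      rw [norm_mul, norm_mul, Complex.norm_real, Real.norm_of_nonneg (GG_nonneg _ _ _), hL]
      exact mul_le_of_le_one_left (GG_nonneg _ _ _)
        (mul_le_one₀ (hχ _) (norm_nonneg _) (kcv_cpow_le hρ _))) (kcv_sumG ha ρ.re τ))
  simp only [e1]
  rw [← integral_tsum_of_summable_integral_norm (F := fun p y => c p * (g p y : ℂ))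
    (fun p => (hgi p).ofReal.const_mul _)]
  · refine Eq.trans (tsum_congr fun p => ?_) (e2.trans ?_)
    · rw [integral_const_mul, integral_complex_ofReal, hgG, hc, hL, hF, Submonoid.coe_mul, hmul,
        Complex.ofReal_mul, Complex.mul_cpow_ofReal_nonneg (k_nm_nonneg _) (k_nm_nonneg _)]
      ring
    · simp [h1, k_nm_one]
  · refine Summable.of_nonneg_of_le (fun p => integral_nonneg fun _ => norm_nonneg _)
      (fun p => ?_) (kcv_sumG ha ρ.re τ)
    simp only [norm_mul, Complex.norm_real, Real.norm_of_nonneg (hg0 _ _)]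
    rw [integral_const_mul, hgG]
    exact mul_le_of_le_one_left (GG_nonneg _ _ _) (hc1 p)

end Crest.Agent.R17
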