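import Crest.Agent.R17.K.Mel
import Crest.Agent.R17.K.Conv

/-!
Row 17, block K: the zero detector.
-/

set_option autoImplicit false

namespace Crest.Agent.R17

open MeasureTheory Set

/-- For `y ≤ 0` the integrand has norm `≤ η₁ e^y`; for `y ≥ 0` write
`∫_{Iic y} S = -∫_{Ioi y} S`, norm `≤ η₂ L e^{-y/L}`; then `norm_integral_le_of_norm_le`
(no integrability of the integrand is needed). -/
theorem det_abs {M S : ℝ → ℂ} (hS : Integrable S) (h0 : ∫ l, S l = 0) {η₁ η₂ L : ℝ} (hL : 0 < L)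
    (h1 : ∀ y l, l ≤ y → y ≤ 0 → ‖M y‖ * ‖S l‖ ≤ η₁ * Real.exp l)
    (h2 : ∀ y l, 0 ≤ y → y ≤ l → ‖M y‖ * ‖S l‖ ≤ η₂ * Real.exp (-(l / L))) :
    ‖∫ y, M y * ∫ l in Iic y, S l‖ ≤ η₁ + η₂ * L ^ 2 := by
  have hL' : -L⁻¹ < 0 := neg_lt_zero.2 (inv_pos.2 hL)
  have e2 : ∀ y : ℝ, ∫ l in Ioi y, Real.exp (-L⁻¹ * l) = L * Real.exp (-L⁻¹ * y) := fun y => by
    rw [integral_exp_mul_Ioi hL']
    field_simp
  have i1 : IntegrableOn (fun y => η₁ * Real.exp y) (Iic 0) := (integrableOn_exp_Iic 0).const_mul _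
  have i2 : IntegrableOn (fun y => η₂ * L * Real.exp (-L⁻¹ * y)) (Ioi 0) :=
    (integrableOn_exp_mul_Ioi hL' 0).const_mul _
  have j1 := i1.integrable_indicator measurableSet_Iic
  have j2 := i2.integrable_indicator measurableSet_Ioi
  refine (norm_integral_le_of_norm_le (j1.add j2) (ae_of_all _ fun y => ?_)).trans (le_of_eq ?_)
  · rcases le_or_gt y 0 with hy | hy
    · rw [Pi.add_apply, indicator_of_mem (mem_Iic.2 hy), indicator_of_notMem (notMem_Ioi.2 hy),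
        add_zero, ← integral_const_mul, ← integral_exp_Iic, ← integral_const_mul]
      refine norm_integral_le_of_norm_le ((integrableOn_exp_Iic y).const_mul _)
        (ae_restrict_of_forall_mem measurableSet_Iic fun l hl => ?_)
      rw [norm_mul]
      exact h1 y l hl hy
    · have e := intervalIntegral.integral_Iic_add_Ioi (b := y) hS.integrableOn hS.integrableOn
      rw [h0, add_eq_zero_iff_eq_neg] at e
      rw [Pi.add_apply, indicator_of_notMem (notMem_Iic.2 hy), indicator_of_mem (mem_Ioi.2 hy),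
        zero_add, e, mul_neg, norm_neg, ← integral_const_mul, mul_assoc, ← e2, ← integral_const_mul]
      refine norm_integral_le_of_norm_le ((integrableOn_exp_mul_Ioi hL' y).const_mul _)
        (ae_restrict_of_forall_mem measurableSet_Ioi fun l hl => ?_)
      rw [norm_mul, show -L⁻¹ * l = -(l / L) by ring]
      exact h2 y l hy.le (le_of_lt hl)
  · rw [integral_add' j1 j2, integral_indicator measurableSet_Iic,
      integral_indicator measurableSet_Ioi, integral_const_mul, integral_const_mul,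
      integral_exp_Iic_zero, e2]
    simp only [mul_zero, Real.exp_zero]
    ring

theorem det_le {u x y z : ℝ} (h : u ≤ Real.exp y) (hz : x + y ≤ z) :
    Real.exp x * u ≤ Real.exp z := by
  refine (mul_le_mul_of_nonneg_left h (Real.exp_pos x).le).trans ?_
  rw [← Real.exp_add]
  exact Real.exp_le_exp.2 hz

theorem det_le' {u C x y z : ℝ} (hC : 0 ≤ C) (h : u ≤ C * Real.exp y) (hz : x + y ≤ z) :
    Real.exp x * u ≤ C * Real.exp z := by
  refine (mul_le_mul_of_nonneg_left h (Real.exp_pos x).le).trans ?_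
  rw [mul_left_comm]
  exact mul_le_mul_of_nonneg_left (det_le le_rfl hz) hC

theorem det_mul {u v x y z : ℝ} (hv : 0 ≤ v) (h : u ≤ Real.exp x) (h' : v ≤ Real.exp y)
    (hz : x + y ≤ z) : u * v ≤ Real.exp z :=
  (mul_le_mul_of_nonneg_right h hv).trans (det_le h' hz)

theorem det_neg {m p : ℝ → ℝ} (hp0 : ∀ l, 0 ≤ p l) {e b β t L C C' : ℝ} (he : 0 < e)
    (he' : e ≤ 1 / 1000) (hL : 0 ≤ L) (hb : 51 / 100 ≤ b) (hb' : b ≤ 1) (hβ : b - e ≤ β)
    (hβ' : β ≤ b) (ht : 1 ≤ t) (ht' : t ≤ 3 / 2) (hC : 0 ≤ C) (hC' : 0 ≤ C')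
    (hm : ∀ l, m l ≤ C * Real.exp (2 * l)) (hp : ∀ l, p l ≤ C * Real.exp (2 * l))
    (hp' : ∀ l, p l ≤ C' * Real.exp ((4 + 4 / e) * l))
    (h1 : ∀ l, t * L ≤ l → l ≤ (t + e) * L → m l < Real.exp (b * l - 7 * e * L))
    {y l : ℝ} (hl : l ≤ y) (hy : y ≤ 0) :
    Real.exp (-(β * (t * L - y))) * m (t * L - y) * (Real.exp (-(β * l)) * p l) ≤
      (C * Real.exp (-(5 * e * L)) + C * C' * Real.exp (-L)) * Real.exp l := by
  have h0 : 0 ≤ Real.exp (-(β * l)) * p l := mul_nonneg (Real.exp_pos _).le (hp0 l)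
  have htL : t * L ≤ 3 / 2 * L := mul_le_mul_of_nonneg_right ht' hL
  have htL' : 0 ≤ t * L := by positivity
  have heL : e * L ≤ 1 / 1000 * L := mul_le_mul_of_nonneg_right he' hL
  rw [add_mul]
  rcases le_total (-y) (e * L) with h | h
  · have a1 := det_le (x := -(β * (t * L - y))) (z := -(5 * e * L))
      (h1 (t * L - y) (by linarith) (by linarith)).le (by
        nlinarith [mul_le_mul_of_nonneg_right (show b - β ≤ e by linarith)
          (show 0 ≤ t * L - y by linarith),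
          mul_le_mul_of_nonneg_left (show t * L - y ≤ 2 * L by linarith) he.le])
    have a2 := det_le' (x := -(β * l)) (z := l) hC (hp l) (by nlinarith)
    refine (mul_le_mul a1 a2 h0 (Real.exp_pos _).le).trans ?_
    have : 0 ≤ C * C' * Real.exp (-L) * Real.exp l := by positivity
    linarith
  · have a1 := det_le' (x := -(β * (t * L - y))) (z := 3 * L - 2 * y) hC (hm (t * L - y)) (by
      nlinarith [mul_nonneg (show 0 ≤ β by linarith) (show 0 ≤ t * L - y by linarith)])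
    have e4 : 4 / e * y ≤ -(4 * L) := by
      rw [div_mul_eq_mul_div, div_le_iff₀ he]
      linarith
    have a2 := det_le' (x := -(β * l)) (z := -L + l - (3 * L - 2 * y)) hC' (hp' l) (by
      nlinarith [mul_le_mul_of_nonneg_left hl (show 0 ≤ 4 / e by positivity),
        mul_nonneg (show 0 ≤ 1 - β by linarith) (show 0 ≤ -l by linarith)])
    refine (mul_le_mul a1 a2 h0 (by positivity)).trans ?_
    rw [mul_mul_mul_comm, ← Real.exp_add, add_sub_cancel, Real.exp_add, ← mul_assoc]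
    exact le_add_of_nonneg_left (by positivity)

theorem det_pos {m p : ℝ → ℝ} (hp0 : ∀ l, 0 ≤ p l) {e b β t L C : ℝ} (he : 0 < e)
    (he' : e ≤ 1 / 1000) (hL : 50 ≤ L) (hb : 51 / 100 ≤ b) (hb' : b ≤ 1) (hβ : b - e ≤ β)
    (hβ' : β ≤ b) (ht : 1 ≤ t) (ht' : t ≤ 3 / 2) (hC : 0 ≤ C) (hC' : C ≤ Real.exp (4 * e * L))
    (hm : ∀ l, m l ≤ C * Real.exp (2 * l))
    (hM : ∀ l, 0 ≤ l → l ≤ 2 * L → m l ≤ Real.exp (e * L + (b + e) * l))
    (hP : ∀ l, 0 ≤ l → l ≤ 2 * L → p l ≤ Real.exp (e * L + (b + e) * l))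
    (hP' : ∀ l, 0 ≤ l → p l ≤ Real.exp (e * L + (1 - b - e) * l + (b + e - 1 / 2) * L))
    (h2 : ∀ l l', l ≤ t * L → t * L ≤ l + l' → l' ≤ (1 / 2 + 500 * e) * L →
      Real.exp (b * l - 7 * e * L) ≤ m l → p l' < Real.exp (b * l' - 7 * e * L))
    {y l : ℝ} (hy : 0 ≤ y) (hl : y ≤ l) :
    Real.exp (-(β * (t * L - y))) * m (t * L - y) * (Real.exp (-(β * l)) * p l) ≤
      Real.exp (1 - 2 * e * L) * Real.exp (-(l / L)) := by
  have h0 : 0 ≤ Real.exp (-(β * l)) * p l := mul_nonneg (Real.exp_pos _).le (hp0 l)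
  have hL0 : 0 < L := by linarith
  have hl0 : 0 ≤ l := hy.trans hl
  have htL : t * L ≤ 3 / 2 * L := mul_le_mul_of_nonneg_right ht' hL0.le
  have htL' : 1 * L ≤ t * L := mul_le_mul_of_nonneg_right ht hL0.le
  have heL : e * L ≤ 1 / 1000 * L := mul_le_mul_of_nonneg_right he' hL0.le
  have heL' : 0 ≤ e * L := by positivity
  have hbβ : b - β ≤ e := by linarith
  have b1 := mul_le_mul_of_nonneg_left (show t * L - y ≤ 3 / 2 * L by linarith) he.le
  have a1 : Real.exp (-(β * (t * L - y))) * m (t * L - y) ≤ Real.exp (4 * e * L) := by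
    rcases le_total 0 (t * L - y) with h | h
    · exact det_le (hM _ h (by linarith)) (by nlinarith [mul_le_mul_of_nonneg_right hbβ h])
    · refine (det_le' (z := 0) hC (hm _) (by nlinarith)).trans ?_
      rwa [Real.exp_zero, mul_one]
  have b2 := mul_le_mul_of_nonneg_right hbβ hl0
  rw [← Real.exp_add]
  rcases le_total l ((1 / 2 + 500 * e) * L) with h | h
  · have hlL : l ≤ L := by linarith
    have b3 := mul_le_mul_of_nonneg_left hlL he.le
    have b4 : l / L ≤ 1 := (div_le_one hL0).2 hlL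
    rcases le_or_gt (Real.exp (b * (t * L - y) - 7 * e * L)) (m (t * L - y)) with h' | h'
    · refine det_mul h0 a1 (det_le (z := -(6 * e * L))
        (h2 _ l (by linarith) (by linarith) h h').le (by linarith)) (by linarith)
    · refine det_mul h0 (det_le (z := -(11 / 2 * e * L)) h'.le ?_)
        (det_le (z := 3 * e * L) (hP l hl0 (by linarith)) (by linarith)) (by linarith)
      nlinarith [mul_le_mul_of_nonneg_right hbβ (show 0 ≤ t * L - y by linarith)]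
  · have b3 := mul_le_mul_of_nonneg_right (show 1 / 50 ≤ 2 * b - 1 by linarith)
      (show 0 ≤ l - L / 2 by linarith)
    have b4 : l / L ≤ 1 + (l - (1 / 2 + 500 * e) * L) / 50 := by
      rw [div_le_iff₀ hL0]
      nlinarith [mul_le_mul_of_nonneg_left hL (sub_nonneg.2 h)]
    exact det_mul h0 a1 (det_le (z := 2 * e * L - (l - L / 2) / 50) (hP' l hl0) (by linarith))
      (by linarith)

theorem det_small {e c : ℝ} (C C' : ℝ) (he : 0 < e) (hc : 0 < c) : ∃ L₀ : ℝ, ∀ L, L₀ ≤ L →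
    50 ≤ L ∧ C ≤ Real.exp (4 * e * L) ∧ C * Real.exp (-(5 * e * L)) + C * C' * Real.exp (-L) +
      Real.exp (1 - 2 * e * L) * L ^ 2 < c := by
  have t0 : ∀ k : ℝ, 0 < k → Filter.Tendsto (fun L : ℝ => k * e * L) Filter.atTop Filter.atTop :=
    fun k hk => Filter.tendsto_id.const_mul_atTop (by positivity)
  have t1 := ((Real.tendsto_exp_neg_atTop_nhds_zero.comp (t0 5 (by norm_num))).const_mul C).add
    (Real.tendsto_exp_neg_atTop_nhds_zero.const_mul (C * C'))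
  have t2 := t1.add (((Real.tendsto_pow_mul_exp_neg_atTop_nhds_zero 2).comp
    (t0 2 two_pos)).const_mul (Real.exp 1 / (2 * e) ^ 2))
  simp only [mul_zero, add_zero] at t2
  refine Filter.eventually_atTop.1 ?_
  filter_upwards [Filter.eventually_ge_atTop 50,
    (Real.tendsto_exp_atTop.comp (t0 4 four_pos)).eventually_ge_atTop C,
    t2.eventually_lt_const hc] with L h1 h2 h3
  refine ⟨h1, h2, h3.trans_eq' ?_⟩
  simp only [Function.comp_apply, sub_eq_add_neg, Real.exp_add]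
  field_simp

/-- By contradiction.  `M y = Dk (μ χ) a ρ (t L - y)`, `S = Dk χ a ρ`, `β = Re ρ ∈ [b - e, b]`;
`k_integral_Dk` with `θ = 1 - b - e`, `k_conv` + `GG_lower` give `c ≤ ‖∫ …‖`, and `det_abs` applies with
`η₂ = exp (1 - 2 e L)`, `η₁ = C₂ exp (-5 e L) + C₂ C_D exp (-L)` (`C_D` from `k_norm_PS_le`,
`D = 4 + 4 / e`):
* `l' ≤ y ≤ 0`, `-y ≤ e L`: `‖M‖ ≤ exp (-5 e L)` (first alternative fails), `‖S l'‖ ≤ C₂ e^{l'}`;
* `l' ≤ y ≤ -e L`: `‖M‖ ≤ C₂ exp (3 L - 2 y)`, `‖S l'‖ ≤ C_D exp ((D - 2) y) e^{l'}`;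
* `0 ≤ y ≤ l' ≤ (1/2 + 500 e) L`: `l = t L - y ∈ [0, 3L/2]`, `‖M‖ ≤ exp (4 e L)`, `‖S‖ ≤ exp (3 e L)`, and
  one of `‖M‖ ≤ exp (-5.5 e L)`, `‖S‖ ≤ exp (-6 e L)` (second alternative fails);
* `0 ≤ y ≤ l'`, `l' ≥ (1/2 + 500 e) L`: `‖M‖ ≤ exp (4 e L)` (for `l ≤ 0`: `≤ C₂ ≤ exp (4 e L)`),
  `‖S l'‖ ≤ exp (2 e L - (l' - L/2) / 50)`, and `l'/L ≤ 1 + (l' - (1/2 + 500 e) L) / 50` for `L ≥ 50`.
`η₁ + η₂ L² < c` for `L ≥ L₀`. -/
theorem detect {a e : ℝ} (ha : 0 < a) (he : 0 < e) (he' : e ≤ 1 / 1000) : ∃ L₀ : ℝ,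
    ∀ (χ : O → ℂ) (G : ℂ → ℂ) (ρ : ℂ) (b t L : ℝ), L₀ ≤ L → χ 1 = 1 →
    (∀ m n : Pr, χ ((m : O) * n) = χ m * χ n) → (∀ n, ‖χ n‖ ≤ 1) → Differentiable ℂ G →
    (∀ s : ℂ, 1 < s.re → G s = DS χ s) → G ρ = 0 → 51 / 100 ≤ b → b ≤ 1 → b - e ≤ ρ.re →
    ρ.re ≤ b → 1 ≤ t → t ≤ 3 / 2 →
    (∀ l, 0 ≤ l → l ≤ 2 * L →
      ‖MS χ a (Real.exp l) (-ρ.im)‖ ≤ Real.exp (e * L + (b + e) * l)) →
    (∀ l, 0 ≤ l → l ≤ 2 * L →
      ‖PS χ a (Real.exp l) (-ρ.im)‖ ≤ Real.exp (e * L + (b + e) * l)) →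
    (∀ l, 0 ≤ l → ‖PS χ a (Real.exp l) (-ρ.im)‖ ≤
      Real.exp (e * L + (1 - b - e) * l + (b + e - 1 / 2) * L)) →
    (∃ l, t * L ≤ l ∧ l ≤ (t + e) * L ∧
      Real.exp (b * l - 7 * e * L) ≤ ‖MS χ a (Real.exp l) (-ρ.im)‖) ∨
    (∃ l l', l ≤ t * L ∧ t * L ≤ l + l' ∧ l' ≤ (1 / 2 + 500 * e) * L ∧
      Real.exp (b * l - 7 * e * L) ≤ ‖MS χ a (Real.exp l) (-ρ.im)‖ ∧
      Real.exp (b * l' - 7 * e * L) ≤ ‖PS χ a (Real.exp l') (-ρ.im)‖) := by
  obtain ⟨c, hc, hGG⟩ := GG_lower ha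
  obtain ⟨C, hC, hCb⟩ := k_norm_PS_le ha one_lt_two
  obtain ⟨C', hC', hCb'⟩ := k_norm_PS_le (D := 4 + 4 / e) ha (by
    have : 0 < 4 / e := by positivity
    linarith)
  obtain ⟨L₀, hL₀⟩ := det_small C C' he hc
  refine ⟨L₀, fun χ G ρ b t L hL h1 hmul hχ hG hGD h0 hb hb' hβ hβ' ht ht' hM hP hP' => ?_⟩
  obtain ⟨hL, hCL, hs⟩ := hL₀ L hL
  by_contra hcon
  push Not at hcon
  have hρ : 0 ≤ ρ.re := by linarith
  obtain ⟨hS, hS0⟩ := k_integral_Dk ha hχ hG hGD h0 (θ := 1 - b - e)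
    (B := Real.exp (e * L + (b + e - 1 / 2) * L)) (by linarith) fun l hl => by
      rw [← Real.exp_add, add_right_comm]
      exact hP' l hl
  have key := det_abs (M := fun y => Dk (fun n => mu n * χ n) a ρ (t * L - y)) hS hS0
    (η₁ := C * Real.exp (-(5 * e * L)) + C * C' * Real.exp (-L)) (η₂ := Real.exp (1 - 2 * e * L))
    (L := L) (by linarith) (fun y l hl hy => by
      rw [k_norm_Dk, k_norm_Dk]
      exact det_neg (m := fun l => ‖MS χ a (Real.exp l) (-ρ.im)‖)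
        (p := fun l => ‖PS χ a (Real.exp l) (-ρ.im)‖) (fun _ => norm_nonneg _) he he' (by linarith)
        hb hb' hβ hβ' ht ht' hC hC' (fun l => hCb _ (k_norm_mu_mul_le hχ) l _)
        (fun l => hCb _ hχ l _) (fun l => hCb' _ hχ l _) hcon.1 hl hy) fun y l hy hl => by
      rw [k_norm_Dk, k_norm_Dk]
      exact det_pos (m := fun l => ‖MS χ a (Real.exp l) (-ρ.im)‖)
        (p := fun l => ‖PS χ a (Real.exp l) (-ρ.im)‖) (fun _ => norm_nonneg _) he he' hL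
        hb hb' hβ hβ' ht ht' hC hCL (fun l => hCb _ (k_norm_mu_mul_le hχ) l _) hM hP hP' hcon.2 hy hl
  rw [k_conv ha h1 hmul hχ hρ, Complex.norm_real, Real.norm_eq_abs] at key
  have := hGG ρ.re (-(t * L)) hρ (neg_nonpos.2 (mul_nonneg (by linarith) (by linarith)))
  linarith [le_abs_self (GG a ρ.re (-(t * L)))]

end Crest.Agent.R17
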