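import Crest.Agent.R17.B.All
import Crest.Agent.R17.A.Tw
import Crest.Agent.R17.A.Count
import Crest.Agent.R17.C.Point

/-!
Row 17, block K (row counts): the facts imported from blocks A and C, under local names.
Owner: helper66 (fills this file from the A and C APIs; other K files just use the statements).
-/

set_option autoImplicit false

namespace Crest.Agent.R17

theorem k_nm_one : nm 1 = 1 := by
  simp [nm, nN]

theorem k_nm_mul (a b : O) : nm (a * b) = nm a * nm b := by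
  simp only [nm, nN, ← Ideal.span_singleton_mul_span_singleton, map_mul, Nat.cast_mul]

theorem k_nm_nonneg (n : O) : 0 ≤ nm n := Nat.cast_nonneg _

theorem k_one_le_nm (n : Pr) : 1 ≤ nm (n : O) := by
  exact one_le_nm (Pr_prim n).ne_zero

theorem k_summable_rpow {s : ℝ} (hs : 1 < s) : Summable fun n : Pr => nm (n : O) ^ (-s) := by
  exact (summable_nm_rpow hs).subtype _

theorem k_norm_mu_le (n : O) : ‖mu n‖ ≤ 1 := by
  unfold mu
  split_ifs <;> simp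

theorem k_norm_sx_le (u n : O) : ‖sx u n‖ ≤ 1 := by
  exact norm_sx_le u n

theorem k_norm_tw_le {q : O} {ψ : O → ℂ} (hq : Lev q) (hψ : IsTw q ψ) (n : O) : ‖ψ n‖ ≤ 1 := by
  exact hψ.norm_le hq.1 n

theorem k_norm_rc_le {q : O} {ψ : O → ℂ} (hq : Lev q) (hψ : IsTw q ψ) (u n : O) :
    ‖rc ψ u n‖ ≤ 1 := by
  rw [rc, norm_mul]
  exact mul_le_one₀ (k_norm_tw_le hq hψ n) (norm_nonneg _) (k_norm_sx_le u n)

theorem k_rc_one {q : O} {ψ : O → ℂ} (hψ : IsTw q ψ) (u : O) : rc ψ u 1 = 1 := by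
  rw [rc, hψ.one, sx_one_right, mul_one]

theorem k_rc_mul {q : O} {ψ : O → ℂ} (hψ : IsTw q ψ) (u : O) (m n : Pr) :
    rc ψ u ((m : O) * n) = rc ψ u m * rc ψ u n := by
  simp only [rc, hψ.mul, sx_mul_right]
  ring

theorem k_isTw_one (q : O) : IsTw q (one q) := by
  exact isTw_one q

theorem k_finite_tw {q : O} (hq : Lev q) : {ψ : O → ℂ | IsTw q ψ}.Finite := by
  exact twb_finite hq.1

/-- the primary elements of norm at most `X` form a finite set -/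
theorem k_finite_nm_le (X : ℝ) : {n : O | nm n ≤ X}.Finite := by
  exact finite_nm_le X

/-- zero-freeness of all the `L`-functions of row `u` in `Re s > b`, `|Im s| ≤ H` -/
def KZF (q u : O) (b H : ℝ) : Prop :=
  ∀ (ψ : O → ℂ) (ρ : ℂ), IsTw q ψ → b < ρ.re → |ρ.im| ≤ H → Lx (rc ψ u) ρ ≠ 0

/-- C1, C2: for a non-exceptional row, `Lx` is the entire continuation of `DS`. -/
theorem k_Lx_spec {q u : O} {ψ : O → ℂ} (hq : Lev q) (hψ : IsTw q ψ) (hu : u ≠ 0)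
    (hE : ¬ Exc q u) :
    Differentiable ℂ (Lx (rc ψ u)) ∧ ∀ s : ℂ, 1 < s.re → Lx (rc ψ u) s = DS (rc ψ u) s := by
  exact ⟨C.Lx_rc_diff hq hψ hu, fun s hs => C.Lx_eq_DS (hq.mul hu) (hψ.rc hq)
    (C.not_princ_rc hq hψ hu hE) hs⟩

/-- C5: pointwise bounds from a local zero-free region. -/
theorem k_c5 (q : O) (a e ε : ℝ) (hq : Lev q) (ha : 0 < a) (he : 0 < e) (he' : e ≤ 1 / 1000)
    (hε : 0 < ε) : ∃ C : ℝ, 0 ≤ C ∧ ∀ (Z U b H t Y : ℝ) (u : O) (ψ : O → ℂ), C ≤ Z → u ≠ 0 →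
      ¬ Exc q u → nm u ≤ U → U ≤ Z → IsTw q ψ → 51 / 100 ≤ b → b ≤ 1 → KZF q u b H →
      |t| + Real.log Z ^ 2 / 2 ≤ H → 1 ≤ Y →
      (Y ≤ Z ^ 2 → ‖MS (rc ψ u) a Y t‖ ≤ C * Z ^ ε * (1 + |t|) ^ C * Y ^ (b + e)) ∧
      (Y ≤ Z ^ 2 → ‖PS (rc ψ u) a Y t‖ ≤ C * Z ^ ε * (1 + |t|) ^ C * Y ^ (b + e)) ∧
      (Y ≤ Z ^ 2 → ‖PP (rc ψ u) a Y t‖ ≤ C * Z ^ ε * (1 + |t|) ^ C * Y ^ (b + e)) ∧
      ‖PS (rc ψ u) a Y t‖ ≤
        C * Z ^ ε * (1 + |t|) ^ C * (Y ^ (1 - b - e) * U ^ (b + e - 1 / 2)) := by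
  exact C.c5 q a e ε hq ha he he' hε

end Crest.Agent.R17
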