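import Crest.Agent.R17.Iface

/-!
Row 17, block K: the exponent certificate with Lipschitz slack.
-/

set_option autoImplicit false

namespace Crest.Agent.R17

/-- the target exponent -/
noncomputable def tgt (κ δ w : ℝ) : ℝ := 16 / 13 * (5 / 6 + (κ - 3 / 4) / 4 - 2 * δ / 3 - w / 6)

theorem cM_lip {δ w : ℝ} (hδ0 : 0 ≤ δ) (hδ1 : δ ≤ 1) (hw0 : 0 ≤ w) (hw : w ≤ δ / 2) (r r' : ℝ) :
    cM δ w r ≤ cM δ w r' + |r - r'| := by
  unfold cM
  rcases le_total r r' with h | h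
  · rw [abs_of_nonpos (by linarith)]
    split_ifs <;> nlinarith
  · rw [abs_of_nonneg (by linarith)]
    split_ifs <;> nlinarith

theorem cS_eq (κ δ w m : ℝ) :
    cS κ δ w m = 1 - w / (3 * κ) - 2 * m * (δ - w / (3 * κ)) := by
  unfold cS; ring

theorem cert_slack (h : StCert) {κ δ w : ℝ} (hκ : 3 / 4 ≤ κ) (hκ1 : κ ≤ 1) (hδ : 1 / 50 ≤ δ)
    (hδκ : δ ≤ κ) (hw0 : 0 ≤ w) (hw : w ≤ δ / 2) : ∃ t : ℝ, 1 ≤ t ∧ t ≤ 3 / 2 ∧
    ∀ η : ℝ, 0 ≤ η → (∀ r, t - η ≤ r → r ≤ t + η → cM δ w r ≤ tgt κ δ w + η) ∧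
      ∀ r m, r ≤ t → t ≤ r + m + η → 0 ≤ m → m ≤ 1 / 2 + η →
        cM δ w r ≤ tgt κ δ w + 2 * η ∨ cS κ δ w m ≤ tgt κ δ w + 2 * η := by
  obtain ⟨t, ht1, ht2, ht⟩ := h κ δ w hκ hκ1 hδ hδκ hw0 hw
  have ht' : ∀ r m : ℝ, r ≤ t → t ≤ r + m → 0 ≤ m → m ≤ 1 / 2 →
      cM δ w r ≤ tgt κ δ w ∨ cS κ δ w m ≤ tgt κ δ w := by
    intro r m h1 h2 h3 h4
    have := ht r m h1 h2 h4
    rw [max_eq_left h3] at this
    rw [← min_le_iff]
    unfold tgt
    linarith
  have hθ0 : 0 ≤ w / (3 * κ) := by positivity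
  have hθ1 : w / (3 * κ) ≤ δ := by
    rw [div_le_iff₀ (by positivity)]; nlinarith
  have hlip := cM_lip (by linarith) (by linarith) hw0 hw
  have habs : ∀ {r s η : ℝ}, s - η ≤ r → r ≤ s + η → |r - s| ≤ η := fun h1 h2 =>
    abs_le.2 ⟨by linarith, by linarith⟩
  rcases ht' t 0 le_rfl (by linarith) le_rfl (by norm_num) with hM | hS
  · refine ⟨t, ht1, ht2, fun η hη => ⟨fun r h1 h2 => ?_, fun r m h1 h2 h3 h4 => ?_⟩⟩
    · linarith [hlip r t, habs h1 h2]
    · rcases le_total (m + η) (1 / 2) with hm | hm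
      · rcases ht' r (m + η) h1 (by linarith) (by linarith) hm with h5 | h5
        · left; linarith
        · right
          rw [cS_eq] at h5 ⊢
          nlinarith
      · rcases ht' (max r (t - 1 / 2)) (1 / 2) (max_le h1 (by linarith))
          (by linarith [le_max_right r (t - 1 / 2)]) (by norm_num) le_rfl with h5 | h5
        · left
          have : |r - max r (t - 1 / 2)| ≤ 2 * η :=
            habs (by rcases max_choice r (t - 1 / 2) with h | h <;> rw [h] <;> linarith)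
              (by linarith [le_max_left r (t - 1 / 2)])
          linarith [hlip r (max r (t - 1 / 2))]
        · right
          rw [cS_eq] at h5 ⊢
          nlinarith
  · rw [cS_eq] at hS
    refine ⟨1, le_rfl, by norm_num, fun η hη => ⟨fun r h1 h2 => ?_, fun r m _ _ h3 _ => ?_⟩⟩
    · have h5 : cM δ w 1 = 1 - δ := by simp [cM]
      linarith [hlip r 1, habs h1 h2]
    · right
      rw [cS_eq]
      nlinarith

end Crest.Agent.R17
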