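import Crest.Agent.R17.K.Det
import Crest.Agent.R17.K.CntM
import Crest.Agent.R17.K.CntS
import Crest.Agent.R17.K.Slack

/-!
Row 17, block K: `stCount`.
-/

set_option autoImplicit false

namespace Crest.Agent.R17

theorem k_card_cover {ι : Type*} (A : Finset O) (I : Finset ι) (Cl : ι → O → Prop) {K : ℝ}
    (hcov : ∀ u ∈ A, ∃ x ∈ I, Cl x u)
    (hK : ∀ x ∈ I, ∀ B ⊆ A, (∀ u ∈ B, Cl x u) → (B.card : ℝ) ≤ K) :
    (A.card : ℝ) ≤ I.card * K := by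
  classical
  have h1 : A ⊆ I.biUnion fun x => A.filter (Cl x) := fun u hu => by
    obtain ⟨x, hx, h⟩ := hcov u hu
    exact Finset.mem_biUnion.2 ⟨x, hx, Finset.mem_filter.2 ⟨hu, h⟩⟩
  have h2 : (A.card : ℝ) ≤ ∑ x ∈ I, ((A.filter (Cl x)).card : ℝ) := by
    exact_mod_cast (Finset.card_le_card h1).trans Finset.card_biUnion_le
  refine h2.trans ?_
  rw [← nsmul_eq_mul]
  exact Finset.sum_le_card_nsmul _ _ _ fun x hx =>
    hK x hx _ (Finset.filter_subset _ _) fun u hu => (Finset.mem_filter.1 hu).2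

/-- the loss in C5 is at most `Z ^ ε` -/
theorem k_loss (C c : ℝ) {ε : ℝ} (hC : 0 ≤ C) (hc : 0 ≤ c) (hε : 0 < ε) : ∃ Z₀ : ℝ, 3 ≤ Z₀ ∧
    ∀ Z t, Z₀ ≤ Z → |t| ≤ c * Real.log Z ^ 2 → C * Z ^ (ε / 2) * (1 + |t|) ^ C ≤ Z ^ ε := by
  obtain ⟨Z₀, h3, h⟩ := k_polylog C c hc (half_pos hε)
  refine ⟨Z₀, h3, fun Z t hZ ht => ?_⟩
  have hZ0 : 0 < Z := by linarith
  have h1 : (1 + |t|) ^ C ≤ (1 + c * Real.log Z ^ 2) ^ C :=
    Real.rpow_le_rpow (by positivity) (by linarith) hC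
  calc C * Z ^ (ε / 2) * (1 + |t|) ^ C = C * (1 + |t|) ^ C * Z ^ (ε / 2) := by ring
    _ ≤ C * (1 + c * Real.log Z ^ 2) ^ C * Z ^ (ε / 2) := by gcongr
    _ ≤ Z ^ (ε / 2) * Z ^ (ε / 2) := by gcongr; exact h Z hZ
    _ = Z ^ ε := by rw [← Real.rpow_add hZ0, add_halves]

theorem k_rpow_le_of_pow_le {Z U σ e : ℝ} (hZ : 0 ≤ Z) (he : 0 ≤ e) (h : Z ^ σ ≤ U) :
    Z ^ (σ * e) ≤ U ^ e := by
  rw [Real.rpow_mul hZ]
  exact Real.rpow_le_rpow (by positivity) h he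

theorem k_log_ge {Z U σ : ℝ} (hZ : 0 < Z) (h : Z ^ σ ≤ U) : σ * Real.log Z ≤ Real.log U := by
  rw [← Real.log_rpow hZ]
  exact Real.log_le_log (by positivity) h

theorem k_w_le (q : O) (a σ e : ℝ) (hq : Lev q) (ha : 0 < a) (hσ : 0 < σ) (he : 0 < e)
    (he' : e ≤ 1 / 1000) : ∃ Z₀ : ℝ, ∀ (Z U P T₁ b w τ : ℝ) (u : O), Z₀ ≤ Z → Z ^ σ ≤ P → P ≤ Z →
      U ≤ Z → 0 ≤ T₁ → 51 / 100 ≤ b → b ≤ 1 → |τ| ≤ Real.log Z ^ 2 / 4 → u ≠ 0 → ¬ Exc q u →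
      nm u ≤ U → KZF q u b (T₁ + Real.log Z ^ 2) →
      P ^ (1 / 2 + w) ≤ ‖PP (rc (one q) u) a P τ‖ → w ≤ b - 1 / 2 + 2 * e := by
  obtain ⟨C, hC, h5⟩ := k_c5 q a e (σ * e / 2) hq ha he he' (by positivity)
  obtain ⟨Z₁, h3, hl⟩ := k_loss C (1 / 4) hC (by norm_num) (mul_pos hσ he)
  refine ⟨max C Z₁, fun Z U P T₁ b w τ u hZ hP hPZ hUZ hT hb hb1 hτ hu hE hn hzf hw => ?_⟩
  have hZ1 : Z₁ ≤ Z := le_trans (le_max_right _ _) hZ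
  have hP1 : 1 < P := lt_of_lt_of_le (Real.one_lt_rpow (by linarith) hσ) hP
  have hL : 0 ≤ Real.log Z ^ 2 := sq_nonneg _
  have h6 := (h5 Z U b _ τ P u (one q) (le_trans (le_max_left _ _) hZ) hu hE hn hUZ (k_isTw_one q)
    hb hb1 hzf (by linarith) hP1.le).2.2.1 (by nlinarith)
  have h7 := hl Z τ hZ1 (by linarith)
  have h8 : Z ^ (σ * e) ≤ P ^ e := k_rpow_le_of_pow_le (by linarith) he.le hP
  have h9 : P ^ (1 / 2 + w) ≤ P ^ (e + (b + e)) := by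
    rw [Real.rpow_add (by linarith) e]
    refine hw.trans (h6.trans ?_)
    gcongr
    exact h7.trans h8
  have := (Real.rpow_le_rpow_left_iff hP1).1 h9
  linarith

theorem k_row (q : O) (a σ e : ℝ) (hq : Lev q) (ha : 0 < a) (hσ : 0 < σ) (he : 0 < e)
    (he' : e ≤ 1 / 1000) : ∃ Z₀ : ℝ, ∀ (Z U T₁ b t : ℝ) (u : O) (ψ : O → ℂ) (ρ : ℂ), Z₀ ≤ Z →
      Z ^ σ ≤ U → U ≤ Z → T₁ ≤ 2 / e * Real.log Z ^ 2 → 51 / 100 ≤ b → b ≤ 1 → 1 ≤ t →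
      t ≤ 3 / 2 → u ≠ 0 → ¬ Exc q u → nm u ≤ U → IsTw q ψ → b - e ≤ ρ.re → |ρ.im| ≤ T₁ →
      Lx (rc ψ u) ρ = 0 → KZF q u b (T₁ + Real.log Z ^ 2) →
      (∃ l, t * Real.log U ≤ l ∧ l ≤ (t + e) * Real.log U ∧
        Real.exp (b * l - 7 * e * Real.log U) ≤ ‖MS (rc ψ u) a (Real.exp l) (-ρ.im)‖) ∨
      (∃ l l', l ≤ t * Real.log U ∧ t * Real.log U ≤ l + l' ∧
        l' ≤ (1 / 2 + 500 * e) * Real.log U ∧
        Real.exp (b * l - 7 * e * Real.log U) ≤ ‖MS (rc ψ u) a (Real.exp l) (-ρ.im)‖ ∧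
        Real.exp (b * l' - 7 * e * Real.log U) ≤ ‖PS (rc ψ u) a (Real.exp l') (-ρ.im)‖) := by
  obtain ⟨C, hC, h5⟩ := k_c5 q a e (σ * e / 2) hq ha he he' (by positivity)
  obtain ⟨Z₁, h3, hl⟩ := k_loss C (2 / e) hC (by positivity) (mul_pos hσ he)
  obtain ⟨L₀, hdet⟩ := detect ha he he'
  refine ⟨max (max C Z₁) (Real.exp (L₀ / σ)),
    fun Z U T₁ b t u ψ ρ hZ hU hUZ hT hb hb1 ht ht' hu hE hn hψ hρ hγ h0 hzf => ?_⟩
  have hZC : C ≤ Z := le_trans (le_trans (le_max_left _ _) (le_max_left _ _)) hZ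
  have hZ1 : Z₁ ≤ Z := le_trans (le_trans (le_max_right _ _) (le_max_left _ _)) hZ
  have hZ2 : Real.exp (L₀ / σ) ≤ Z := le_trans (le_max_right _ _) hZ
  have hZ0 : 0 < Z := by linarith
  have hU1 : 1 < U := lt_of_lt_of_le (Real.one_lt_rpow (by linarith) hσ) hU
  have hU0 : 0 < U := by linarith
  have hL0 : L₀ ≤ Real.log U := by
    have h1 : L₀ / σ ≤ Real.log Z := (Real.le_log_iff_exp_le hZ0).2 hZ2
    rw [div_le_iff₀ hσ] at h1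
    linarith [k_log_ge hZ0 hU]
  have hL : 0 ≤ Real.log Z ^ 2 := sq_nonneg _
  have hspec := k_Lx_spec hq hψ hu hE
  have hρb : ρ.re ≤ b := by
    by_contra hlt
    exact hzf ψ ρ hψ (not_le.1 hlt) (by linarith) h0
  have hloss : C * Z ^ (σ * e / 2) * (1 + |(-ρ.im)|) ^ C ≤ Real.exp (e * Real.log U) := by
    refine (hl Z _ hZ1 (by rw [abs_neg]; linarith)).trans ?_
    rw [mul_comm e, ← Real.rpow_def_of_pos hU0]
    exact k_rpow_le_of_pow_le hZ0.le he.le hU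
  have hc5 := fun l (hl0 : 0 ≤ l) => h5 Z U b _ (-ρ.im) (Real.exp l) u ψ hZC hu hE hn hUZ hψ hb hb1
    hzf (by rw [abs_neg]; linarith) (Real.one_le_exp hl0)
  have hY : ∀ l, l ≤ 2 * Real.log U → Real.exp l ≤ Z ^ 2 := fun l hl2 => by
    calc Real.exp l ≤ Real.exp (Real.log U + Real.log U) := Real.exp_le_exp.2 (by linarith)
      _ = U ^ 2 := by rw [Real.exp_add, Real.exp_log hU0, sq]
      _ ≤ Z ^ 2 := by gcongr
  have hpow : ∀ l s : ℝ, Real.exp l ^ s = Real.exp (s * l) := fun l s => by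
    rw [← Real.exp_mul, mul_comm]
  refine hdet (rc ψ u) (Lx (rc ψ u)) ρ b t (Real.log U) hL0 (k_rc_one hψ u) (k_rc_mul hψ u)
    (k_norm_rc_le hq hψ u) hspec.1 hspec.2 h0 hb hb1 hρ hρb ht ht' ?_ ?_ ?_
  · intro l hl0 hl2
    refine ((hc5 l hl0).1 (hY l hl2)).trans ?_
    rw [Real.exp_add, hpow]
    gcongr
  · intro l hl0 hl2
    refine ((hc5 l hl0).2.1 (hY l hl2)).trans ?_
    rw [Real.exp_add, hpow]
    gcongr
  · intro l hl0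
    refine (hc5 l hl0).2.2.2.trans ?_
    rw [Real.exp_add, Real.exp_add, hpow, Real.rpow_def_of_pos hU0, mul_comm (Real.log U),
      mul_assoc (Real.exp _)]
    gcongr

theorem countM (h1 : StM1) (h2 : StM1L) : ∃ C₀ : ℝ, 0 ≤ C₀ ∧ ∀ (q : O) (a σ e : ℝ), Lev q →
    0 < a → 0 < σ → 0 < e → e ≤ 1 / 1000 → ∃ C : ℝ, 0 ≤ C ∧
    ∀ (ψ : O → ℂ) (Z U P T b w τ l₀ : ℝ) (A : Finset O), IsTw q ψ → C ≤ Z → 1 < Z → Z ^ σ ≤ P →
    Z ^ σ ≤ U → U ≤ Z → 0 ≤ T → 0 ≤ w → w ≤ 1 / 2 → 0 ≤ l₀ →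
    (1 / 2 - 501 * e) * Real.log U ≤ l₀ → l₀ ≤ 2 * Real.log U →
    (∀ u ∈ A, u ≠ 0 ∧ nm u ≤ U ∧ (∃ l t, l₀ ≤ l ∧ l ≤ l₀ + 1 ∧ |t| ≤ T ∧
      Real.exp (b * l₀ - 7 * e * Real.log U) ≤ ‖MS (rc ψ u) (a / 2) (Real.exp l) t‖) ∧
      (w = 0 ∨ P ^ (1 / 2 + w) ≤ ‖PP (rc (one q) u) a P τ‖)) →
    (A.card : ℝ) ≤ C * (1 + T) ^ C * P ^ C₀ *
      Real.exp ((cM (2 * b - 1) w (l₀ / Real.log U) + C₀ * e) * Real.log U) := by
  obtain ⟨C₀, hC₀, hs⟩ := countM_short h1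
  refine ⟨C₀ + 15, by linarith, fun q a σ e hq ha hσ he he' => ?_⟩
  obtain ⟨C₁, hC₁, hs⟩ := hs q a σ e hq ha hσ he he'
  obtain ⟨C₂, hC₂, hl⟩ := countM_long h2 q a σ e hq ha hσ he
  refine ⟨C₁ + C₂, by linarith,
    fun ψ Z U P T b w τ l₀ A hψ hZ hZ1 hP hU hUZ hT hw hw' hl0 hl1 hl2 hA => ?_⟩
  have hU1 : 1 < U := lt_of_lt_of_le (Real.one_lt_rpow hZ1 hσ) hU
  have hP1 : 1 ≤ P := (lt_of_lt_of_le (Real.one_lt_rpow hZ1 hσ) hP).le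
  have hL : 0 < Real.log U := Real.log_pos hU1
  have hT1 : 1 ≤ 1 + T := by linarith
  rcases le_or_gt l₀ (Real.log U) with hc | hc
  · refine (hs ψ Z U P T b w τ l₀ A hψ (by linarith) hP hU hUZ hT hw hw' hl0 hl1 hc
      fun u hu => (hA u hu).2).trans ?_
    have e1 : (cM (2 * b - 1) w (l₀ / Real.log U) + (C₀ + 15) * e) * Real.log U =
        (1 + (C₀ + 15) * e) * Real.log U - (2 * b - 1) * l₀ - w * (Real.log U - l₀) := by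
      rw [cM, if_pos ((div_le_one hL).2 hc)]
      field_simp
      ring
    rw [e1]
    gcongr <;> linarith
  · refine (hl ψ Z U T b l₀ A hψ hZ1.le hU hUZ hT hc.le hl2
      fun u hu => ⟨(hA u hu).1, (hA u hu).2.1, (hA u hu).2.2.1⟩).trans ?_
    have e1 : (cM (2 * b - 1) w (l₀ / Real.log U) + (C₀ + 15) * e) * Real.log U =
        (1 / 6 + (C₀ + 15) * e) * Real.log U + (11 / 6 - 2 * b) * l₀ := by
      rw [cM, if_neg (not_le.2 ((one_lt_div hL).2 hc))]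
      field_simp
      ring
    rw [e1]
    have h3 : 1 ≤ P ^ (C₀ + 15) := Real.one_le_rpow hP1 (by linarith)
    calc C₂ * (1 + T) ^ C₂ * Real.exp ((1 / 6 + 15 * e) * Real.log U + (11 / 6 - 2 * b) * l₀)
        = C₂ * (1 + T) ^ C₂ * 1 *
          Real.exp ((1 / 6 + 15 * e) * Real.log U + (11 / 6 - 2 * b) * l₀) := by ring
      _ ≤ _ := by gcongr <;> linarith

/-- floor of a non-negative centre -/
theorem k_floor {l : ℝ} (hl : 0 ≤ l) : ∃ i : ℕ, (i : ℝ) ≤ l ∧ l ≤ i + 1 :=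
  ⟨⌊l⌋₊, Nat.floor_le hl, (Nat.lt_floor_add_one l).le⟩

/-- rounding the output of the detector to an integer centre -/
theorem k_class {L e t b ρ₀ : ℝ} {fM fS gM gS : ℝ → ℝ} (hL : 0 < L) (he : 0 < e)
    (he' : e ≤ 1 / 1000) (heL : 1 ≤ e * L) (hb : 0 ≤ b) (ht1 : 1 ≤ t) (ht2 : t ≤ 3 / 2)
    (hcert : ∀ η : ℝ, 0 ≤ η → (∀ r, t - η ≤ r → r ≤ t + η → gM r ≤ ρ₀ + η) ∧
      ∀ r m, r ≤ t → t ≤ r + m + η → 0 ≤ m → m ≤ 1 / 2 + η →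
        gM r ≤ ρ₀ + 2 * η ∨ gS m ≤ ρ₀ + 2 * η)
    (h : (∃ l, t * L ≤ l ∧ l ≤ (t + e) * L ∧ Real.exp (b * l - 7 * e * L) ≤ fM l) ∨
      (∃ l l', l ≤ t * L ∧ t * L ≤ l + l' ∧ l' ≤ (1 / 2 + 500 * e) * L ∧
        Real.exp (b * l - 7 * e * L) ≤ fM l ∧ Real.exp (b * l' - 7 * e * L) ≤ fS l')) :
    ∃ i : ℕ, (i : ℝ) ≤ 2 * L ∧
      (((1 / 2 - 501 * e) * L ≤ i ∧ gM (i / L) ≤ ρ₀ + 1000 * e ∧
        ∃ l : ℝ, (i : ℝ) ≤ l ∧ l ≤ i + 1 ∧ Real.exp (b * i - 7 * e * L) ≤ fM l) ∨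
      ((i : ℝ) ≤ (1 / 2 + 500 * e) * L ∧ gS (i / L) ≤ ρ₀ + 1000 * e ∧
        ∃ l : ℝ, (i : ℝ) ≤ l ∧ l ≤ i + 1 ∧ Real.exp (b * i - 7 * e * L) ≤ fS l)) := by
  have hexp : ∀ (i : ℕ) (l : ℝ), (i : ℝ) ≤ l →
      Real.exp (b * i - 7 * e * L) ≤ Real.exp (b * l - 7 * e * L) := fun i l hi =>
    Real.exp_le_exp.2 (by nlinarith)
  have h1 : L ≤ t * L := by nlinarith
  have h2 : t * L ≤ 3 / 2 * L := by nlinarith
  have h3 : 1000 * (e * L) ≤ L := by nlinarith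
  rcases h with ⟨l, hl1, hl2, hl3⟩ | ⟨l, l', hl1, hl2, hl3, hl4, hl5⟩
  · obtain ⟨i, hi1, hi2⟩ := k_floor (l := l) (by linarith)
    refine ⟨i, by linarith, Or.inl ⟨by linarith, ?_, l, hi1, hi2, (hexp i l hi1).trans hl3⟩⟩
    have := (hcert e he.le).1 (i / L) (by rw [le_div_iff₀ hL]; linarith)
      (by rw [div_le_iff₀ hL]; linarith)
    linarith
  · obtain ⟨i, hi1, hi2⟩ := k_floor (l := l) (by linarith)
    obtain ⟨i', hi1', hi2'⟩ := k_floor (l := l') (by linarith)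
    have hsum : t ≤ i / L + i' / L + 500 * e := by
      have : t - 500 * e ≤ (i + i') / L := by rw [le_div_iff₀ hL]; linarith
      rw [add_div] at this
      linarith
    rcases (hcert (500 * e) (by linarith)).2 (i / L) (i' / L)
      (by rw [div_le_iff₀ hL]; linarith) hsum (by positivity)
      (by rw [div_le_iff₀ hL]; linarith) with h | h
    · exact ⟨i, by linarith, Or.inl ⟨by linarith, by linarith, l, hi1, hi2,
        (hexp i l hi1).trans hl4⟩⟩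
    · exact ⟨i', by linarith, Or.inr ⟨by linarith, by linarith, l', hi1', hi2',
        (hexp i' l' hi1').trans hl5⟩⟩

/-- the number of classes and the logarithmic factors -/
theorem k_logs (n : ℕ) {C e ε : ℝ} (hC : 0 ≤ C) (he : 0 < e) (he' : e ≤ 1 / 1000) (hε : 0 < ε) :
    ∃ Z₀ : ℝ, 3 ≤ Z₀ ∧ ∀ Z L T τ : ℝ, Z₀ ≤ Z → 0 ≤ L → L ≤ Real.log Z → 0 ≤ T →
      T ≤ 2 / e * Real.log Z ^ 2 → |τ| ≤ Real.log Z ^ 2 / 4 →
      (n * ((⌊2 * L⌋₊ + 1) * 2) : ℕ) * (C * (1 + T) ^ C * (1 + |τ|) ^ C) ≤ Z ^ ε := by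
  obtain ⟨Z₀, hZ₀, hpl⟩ := k_polylog (4 * n * C + (2 * C + 1)) (2 / e) (by positivity) hε
  refine ⟨Z₀, hZ₀, fun Z L T τ hZ hL hLZ hT0 hT hτ => le_trans ?_ (hpl Z hZ)⟩
  have hlZ : 1 ≤ Real.log Z := by
    rw [Real.le_log_iff_exp_le (by linarith)]
    linarith [Real.exp_one_lt_d9]
  have h2e : 1 ≤ 2 / e := by rw [le_div_iff₀ he]; linarith
  have hX1 : Real.log Z ^ 2 ≤ 2 / e * Real.log Z ^ 2 := by nlinarith [sq_nonneg (Real.log Z)]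
  have hX0 : Real.log Z ≤ Real.log Z ^ 2 := by nlinarith
  generalize 2 / e * Real.log Z ^ 2 = Y at hX1 hT ⊢
  have hτ0 := abs_nonneg τ
  have h5 : (1 + T) ^ C ≤ (1 + Y) ^ C := Real.rpow_le_rpow (by linarith) (by linarith) hC
  have h6 : (1 + |τ|) ^ C ≤ (1 + Y) ^ C := Real.rpow_le_rpow (by linarith) (by linarith) hC
  have h7 : (⌊2 * L⌋₊ : ℝ) + 1 ≤ 2 * (1 + Y) := by
    have : (⌊2 * L⌋₊ : ℝ) ≤ 2 * L := Nat.floor_le (by linarith)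
    linarith
  have hY : 1 ≤ 1 + Y := by linarith
  have h8 : (0 : ℝ) ≤ 4 * n * C := by positivity
  push_cast
  calc (n : ℝ) * (((⌊2 * L⌋₊ : ℝ) + 1) * 2) * (C * (1 + T) ^ C * (1 + |τ|) ^ C)
      ≤ n * ((2 * (1 + Y)) * 2) * (C * (1 + Y) ^ C * (1 + Y) ^ C) := by gcongr
    _ = 4 * n * C * (1 + Y) ^ (2 * C + 1) := by
      rw [two_mul C, Real.rpow_add (by linarith), Real.rpow_add (by linarith), Real.rpow_one]
      ring
    _ ≤ _ := mul_le_mul (by linarith) (Real.rpow_le_rpow_of_exponent_le hY (by linarith))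
        (by positivity) (by linarith)

theorem k_cS_mul {β b w L l c : ℝ} (hβ : 7 / 8 ≤ β) (hL : 0 < L) :
    (1 + c) * L - 2 * (2 * b - 1) * l - w * (L - 2 * l) / (3 * (2 * β - 1)) =
      (cS (2 * β - 1) (2 * b - 1) w (l / L) + c) * L := by
  have : 2 * β - 1 ≠ 0 := by linarith
  rw [cS]
  field_simp
  ring

theorem k_mono {C C' C₀ C₀' T τ P x y : ℝ} (hC : 0 ≤ C) (hC' : C ≤ C') (h0 : C₀ ≤ C₀')
    (hT : 0 ≤ T) (hP : 1 ≤ P) (hxy : x ≤ y) :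
    C * (1 + T) ^ C * (1 + |τ|) ^ C * P ^ C₀ * Real.exp x ≤
      C' * (1 + T) ^ C' * (1 + |τ|) ^ C' * P ^ C₀' * Real.exp y ∧
    C * (1 + T) ^ C * P ^ C₀ * Real.exp x ≤
      C' * (1 + T) ^ C' * (1 + |τ|) ^ C' * P ^ C₀' * Real.exp y := by
  have hτ := abs_nonneg τ
  have hC'0 : 0 ≤ C' := hC.trans hC'
  have h1 : C * (1 + T) ^ C * (1 + |τ|) ^ C * P ^ C₀ * Real.exp x ≤
      C' * (1 + T) ^ C' * (1 + |τ|) ^ C' * P ^ C₀' * Real.exp y := by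
    gcongr <;> linarith
  refine ⟨h1, le_trans ?_ h1⟩
  have h5 : 1 ≤ (1 + |τ|) ^ C := Real.one_le_rpow (by linarith) hC
  calc _ = C * (1 + T) ^ C * 1 * P ^ C₀ * Real.exp x := by ring
    _ ≤ _ := by gcongr

theorem k_w' {b w e : ℝ} (hb : 51 / 100 ≤ b) (hw0 : 0 ≤ w) (he : 0 < e)
    (hw2 : w ≤ b - 1 / 2 + 2 * e) : ∃ w' : ℝ, 0 ≤ w' ∧ w' ≤ (2 * b - 1) / 2 ∧ w' ≤ w ∧
      w - 2 * e ≤ w' ∧ (w = 0 → w' = 0) :=
  ⟨min w (b - 1 / 2), le_min hw0 (by linarith), (min_le_right _ _).trans (by linarith),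
    min_le_left _ _, le_min (by linarith) (by linarith),
    fun h => by rw [h]; exact min_eq_left (by linarith)⟩

theorem k_eL {Z U e σ : ℝ} (he : 0 < e) (hσ : 0 < σ) (hZ : Real.exp (1 / (e * σ)) ≤ Z)
    (hU : Z ^ σ ≤ U) : 1 ≤ e * Real.log U := by
  have hZ0 : 0 < Z := lt_of_lt_of_le (Real.exp_pos _) hZ
  have h5 : 1 / (e * σ) ≤ Real.log Z := (Real.le_log_iff_exp_le hZ0).2 hZ
  rw [div_le_iff₀ (by positivity)] at h5
  have h6 := k_log_ge hZ0 hU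
  nlinarith

theorem k_exp_le {β b w w' e C C' x L : ℝ} (hL : 0 < L) (he : 0 < e) (hw : w - 2 * e ≤ w')
    (hC : C ≤ C') (hx : x ≤ tgt (2 * β - 1) (2 * b - 1) w' + 1000 * e) :
    (x + C * e) * L ≤
      (16 / 13 * (5 / 6 + (β - 7 / 8) / 2 - 2 * (2 * b - 1) / 3 - w / 6) + (C' + 1001) * e) * L := by
  rw [tgt] at hx
  have : C * e ≤ C' * e := by gcongr
  exact mul_le_mul_of_nonneg_right (by linarith) hL.le

theorem stCount (h1 : StM1) (h2 : StM1L) (h3 : StM2) (h4 : StCert) : StCount := by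
  classical
  obtain ⟨CM, hCM, hM'⟩ := countM h1 h2
  obtain ⟨CS, hCS, hS'⟩ := countS h3
  refine ⟨CM + CS + 1001, fun β hβ hβ1 hZF q a σ e ε hq ha hσ he he' hε => ?_⟩
  obtain ⟨C₁, hC₁, hM⟩ := hM' q a σ e hq ha hσ he he'
  obtain ⟨C₂, hC₂, hS⟩ := hS' β hβ hβ1 hZF q a σ e hq ha hσ he he'
  clear hM' hS' h1 h2 h3
  obtain ⟨Z₁, hwle⟩ := k_w_le q a σ e hq ha hσ he he'
  obtain ⟨Z₂, hrow⟩ := k_row q (a / 2) σ e hq (half_pos ha) hσ he he'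
  obtain ⟨Tw, hTw⟩ : ∃ Tw : Finset (O → ℂ), ∀ ψ, ψ ∈ Tw ↔ IsTw q ψ :=
    ⟨(k_finite_tw hq).toFinset, fun ψ => by simp⟩
  have hC₃ : 0 ≤ C₁ + C₂ := add_nonneg hC₁ hC₂
  obtain ⟨Z₃, hZ₃, hpl⟩ := k_logs Tw.card hC₃ he he' hε
  refine ⟨max (max (max C₁ Z₁) (max Z₂ Z₃)) (Real.exp (1 / (e * σ))),
    fun Z U P T₁ b w τ A hZ hP hPZ hU hUZ hT0 hT hb hbβ hτ hw0 hA => ?_⟩
  simp only [max_le_iff] at hZ
  obtain ⟨⟨⟨hZC, hZ1⟩, hZ2, hZ3⟩, hZ4⟩ := hZ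
  have hZ2' : 2 ≤ Z := by linarith
  have hZ0 : 0 < Z := by linarith
  have hZ1' : 1 < Z := by linarith
  have hU1 : 1 < U := lt_of_lt_of_le (Real.one_lt_rpow hZ1' hσ) hU
  have hU0 : 0 < U := by linarith
  have hP1 : 1 ≤ P := (lt_of_lt_of_le (Real.one_lt_rpow hZ1' hσ) hP).le
  have hC1 : 1 ≤ max (max (max C₁ Z₁) (max Z₂ Z₃)) (Real.exp (1 / (e * σ))) :=
    le_trans (Real.one_le_exp (by positivity)) (le_max_right _ _)
  generalize max (max (max C₁ Z₁) (max Z₂ Z₃)) (Real.exp (1 / (e * σ))) = Cf at hC1 ⊢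
  rcases A.eq_empty_or_nonempty with rfl | ⟨u₀, hu₀⟩
  · simp only [Finset.card_empty, Nat.cast_zero]
    positivity
  have hL : 0 < Real.log U := Real.log_pos hU1
  have hLZ : Real.log U ≤ Real.log Z := Real.log_le_log hU0 hUZ
  have heL := k_eL he hσ hZ4 hU
  have hb1 : b ≤ 1 := hbβ.trans hβ1
  have hw2 : w ≤ b - 1 / 2 + 2 * e := by
    obtain ⟨hu, hE, hn, -, hzf, h | h⟩ := hA u₀ hu₀
    · linarith
    · exact hwle Z U P T₁ b w τ u₀ hZ1 hP hPZ hUZ hT0 hb hb1 hτ hu hE hn hzf h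
  obtain ⟨w', hw'0, hw'1, hw'2, hw'3, hw'4⟩ := k_w' hb hw0 he hw2
  have hw'h : w' ≤ 1 / 2 := by linarith
  have hslot : ∀ u ∈ A, w' = 0 ∨ P ^ (1 / 2 + w') ≤ ‖PP (rc (one q) u) a P τ‖ := fun u hu => by
    rcases (hA u hu).2.2.2.2.2 with h | h
    · exact Or.inl (hw'4 h)
    · exact Or.inr (le_trans (Real.rpow_le_rpow_of_exponent_le hP1 (by linarith)) h)
  obtain ⟨t, ht1, ht2, hcert⟩ := cert_slack h4 (κ := 2 * β - 1) (δ := 2 * b - 1) (w := w')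
    (by linarith) (by linarith) (by linarith) (by linarith) hw'0 hw'1
  have hexp := fun C x => @k_exp_le β b w w' e C (CM + CS) x _ hL he hw'3
  generalize 16 / 13 * (5 / 6 + (β - 7 / 8) / 2 - 2 * (2 * b - 1) / 3 - w / 6) +
    (CM + CS + 1001) * e = E at hexp ⊢
  generalize tgt (2 * β - 1) (2 * b - 1) w' = ρ₀ at hexp hcert
  have key := k_card_cover A (Tw ×ˢ Finset.range (⌊2 * Real.log U⌋₊ + 1) ×ˢ
      (Finset.univ : Finset Bool))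
    (fun x u => (x.2.2 = true ∧ (1 / 2 - 501 * e) * Real.log U ≤ x.2.1 ∧
        (x.2.1 : ℝ) ≤ 2 * Real.log U ∧
        cM (2 * b - 1) w' (x.2.1 / Real.log U) ≤ ρ₀ + 1000 * e ∧
        ∃ l t, (x.2.1 : ℝ) ≤ l ∧ l ≤ x.2.1 + 1 ∧ |t| ≤ T₁ ∧
          Real.exp (b * x.2.1 - 7 * e * Real.log U) ≤
            ‖MS (rc x.1 u) (a / 2) (Real.exp l) t‖) ∨
      (x.2.2 = false ∧ (x.2.1 : ℝ) ≤ (1 / 2 + 500 * e) * Real.log U ∧
        cS (2 * β - 1) (2 * b - 1) w' (x.2.1 / Real.log U) ≤ ρ₀ + 1000 * e ∧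
        ∃ l t, (x.2.1 : ℝ) ≤ l ∧ l ≤ x.2.1 + 1 ∧ |t| ≤ T₁ ∧
          Real.exp (b * x.2.1 - 7 * e * Real.log U) ≤
            ‖PS (rc x.1 u) (a / 2) (Real.exp l) t‖))
    (K := (C₁ + C₂) * (1 + T₁) ^ (C₁ + C₂) * (1 + |τ|) ^ (C₁ + C₂) * P ^ (CM + CS + 1001) *
      Real.exp (E * Real.log U)) ?_ ?_
  · refine key.trans ?_
    have hfac := hpl Z _ T₁ τ hZ3 hL.le hLZ hT0 hT hτ
    simp only [Finset.card_product, Finset.card_range, Finset.card_univ, Fintype.card_bool]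
    rw [Real.rpow_def_of_pos hU0, mul_comm (Real.log U) E, mul_assoc _ (P ^ _), ← mul_assoc,
      mul_assoc _ (P ^ _)]
    refine mul_le_mul_of_nonneg_right (hfac.trans ?_) (by positivity)
    exact le_mul_of_one_le_left (by positivity) hC1
  · intro u hu
    obtain ⟨hu0, hE, hn, ⟨ψ, ρ, hψ, hρ, hγ, h0⟩, hzf, -⟩ := hA u hu
    have hγ' : |(-ρ.im)| ≤ T₁ := by rwa [abs_neg]
    obtain ⟨i, hi, hcl⟩ := k_class hL he he' heL (le_trans (by norm_num) hb) ht1 ht2 hcert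
      (hrow Z U T₁ b t u ψ ρ hZ2 hU hUZ hT hb hb1 ht1 ht2 hu0 hE hn hψ hρ hγ h0 hzf)
    have hmem : ∀ c : Bool, (ψ, i, c) ∈ Tw ×ˢ Finset.range (⌊2 * Real.log U⌋₊ + 1) ×ˢ
        (Finset.univ : Finset Bool) := fun c => by
      simp only [Finset.mem_product, Finset.mem_range, Finset.mem_univ, and_true]
      exact ⟨(hTw ψ).2 hψ, Nat.lt_succ_of_le (Nat.le_floor hi)⟩
    rcases hcl with ⟨k1, k2, l, k3, k4, k5⟩ | ⟨k1, k2, l, k3, k4, k5⟩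
    · exact ⟨(ψ, i, true), hmem _, Or.inl ⟨rfl, k1, hi, k2, l, -ρ.im, k3, k4, hγ', k5⟩⟩
    · exact ⟨(ψ, i, false), hmem _, Or.inr ⟨rfl, k1, k2, l, -ρ.im, k3, k4, hγ', k5⟩⟩
  · rintro ⟨ψ, i, c⟩ hx B hB hcl
    have hψ : IsTw q ψ := (hTw ψ).1 (Finset.mem_product.1 hx).1
    rcases B.eq_empty_or_nonempty with rfl | ⟨u₁, hu₁⟩
    · simp only [Finset.card_empty, Nat.cast_zero]
      positivity
    have hi0 : (0 : ℝ) ≤ i := Nat.cast_nonneg _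
    rcases hcl u₁ hu₁ with ⟨hc, hi1, hi2, hi3, -⟩ | ⟨hc, hi1, hi3, -⟩
    · simp only at hc hi1 hi2 hi3
      subst hc
      refine (hM ψ Z U P T₁ b w' τ i B hψ hZC hZ1' hP hU hUZ hT0 hw'0 hw'h hi0 hi1 hi2
        fun u hu => ⟨(hA u (hB hu)).1, (hA u (hB hu)).2.2.1, ?_, hslot u (hB hu)⟩).trans ?_
      · rcases hcl u hu with h | h
        · exact h.2.2.2.2
        · exact absurd h.1 (by simp)
      · exact (k_mono hC₁ (le_add_of_nonneg_right hC₂) (by linarith) hT0 hP1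
          (hexp CM _ (le_add_of_nonneg_right hCS) hi3)).2
    · simp only at hc hi1 hi3
      subst hc
      refine (hS ψ Z U P T₁ b w' τ i B hψ hZ2' hP hU hUZ hT0 hw'0 hw'h hi0 hi1
        fun u hu => ⟨(hA u (hB hu)).1, (hA u (hB hu)).2.1, (hA u (hB hu)).2.2.1, ?_,
          hslot u (hB hu)⟩).trans ?_
      · rcases hcl u hu with h | h
        · exact absurd h.1 (by simp)
        · exact h.2.2.2
      · rw [k_cS_mul hβ hL]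
        exact (k_mono hC₂ (le_add_of_nonneg_left hC₁) (by linarith) hT0 hP1
          (hexp CS _ (le_add_of_nonneg_left hCM) hi3)).1

end Crest.Agent.R17
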