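import Crest.Agent.R17.K.Basic

/-!
Row 17, block K: the integral of the plain detector sum over all centres is `L(ρ) · const`.
-/

set_option autoImplicit false

namespace Crest.Agent.R17

open MeasureTheory Set

theorem mel_quad {a : ℝ} (ha : 0 < a) (s : ℂ) (t : ℝ) {x : ℝ} (hx : 0 < x) (l : ℝ) :
    Complex.exp (-(s * l)) * LN a (Real.exp l) t x =
      Complex.exp (((-(1 / (2 * a ^ 2)) : ℝ) : ℂ) * l ^ 2 +
        (Real.log x / a ^ 2 - (s + Complex.I * t)) * l +
        (-(Real.log x ^ 2 / (2 * a ^ 2)) + Complex.I * t * Real.log x)) := by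
  have ha' : (a : ℂ) ≠ 0 := by exact_mod_cast ha.ne'
  rw [LN, ← Complex.exp_add, Real.log_div hx.ne' (Real.exp_pos l).ne', Real.log_exp]
  congr 1
  push_cast
  field_simp
  ring

theorem mel_neg {a : ℝ} (ha : 0 < a) : (((-(1 / (2 * a ^ 2)) : ℝ) : ℂ)).re < 0 := by
  rw [Complex.ofReal_re]
  have : 0 < 1 / (2 * a ^ 2) := by positivity
  linarith

theorem mel_integrable_LN {a : ℝ} (ha : 0 < a) (s : ℂ) (t : ℝ) {x : ℝ} (hx : 0 < x) :
    Integrable fun l : ℝ => Complex.exp (-(s * l)) * LN a (Real.exp l) t x := by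
  simp only [mel_quad ha s t hx]
  exact integrable_cexp_quadratic' (mel_neg ha) _ _

/-- Gaussian integral: `∫ e^{-s l} V(x; e^l, t) dl = x^{-s} LNt a (s + i t)`
(substitute `ξ = log x - l`; `integral_cexp_quadratic`). -/
theorem k_laplace_LN {a : ℝ} (ha : 0 < a) (s : ℂ) (t : ℝ) {x : ℝ} (hx : 0 < x) :
    ∫ l : ℝ, Complex.exp (-(s * l)) * LN a (Real.exp l) t x =
      (x : ℂ) ^ (-s) * LNt a (s + Complex.I * t) := by
  have ha' : (a : ℂ) ≠ 0 := by exact_mod_cast ha.ne'
  have hx' : (x : ℂ) ≠ 0 := by exact_mod_cast hx.ne'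
  simp only [mel_quad ha s t hx]
  rw [integral_cexp_quadratic (mel_neg ha), LNt, Complex.cpow_def_of_ne_zero hx',
    ← Complex.ofReal_log hx.le]
  have h1 : ((Real.pi : ℂ) / -((-(1 / (2 * a ^ 2)) : ℝ) : ℂ)) ^ (1 / 2 : ℂ) =
      ((Real.sqrt (2 * Real.pi) * a : ℝ) : ℂ) := by
    have e : ((Real.pi : ℂ) / -((-(1 / (2 * a ^ 2)) : ℝ) : ℂ)) =
        (((Real.sqrt (2 * Real.pi) * a) ^ 2 : ℝ) : ℂ) := by
      rw [mul_pow, Real.sq_sqrt (by positivity)]
      push_cast
      field_simp
    have e2 : (1 / 2 : ℂ) = ((1 / 2 : ℝ) : ℂ) := by push_cast; rfl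
    rw [e, e2, ← Complex.ofReal_cpow (by positivity), ← Real.sqrt_eq_rpow,
      Real.sqrt_sq (by positivity)]
  rw [h1, mul_left_comm, ← Complex.exp_add]
  congr 2
  push_cast
  field_simp
  ring

theorem mel_norm_term (a : ℝ) (s : ℂ) (t x l : ℝ) :
    ((‖Complex.exp (-(s * l)) * LN a (Real.exp l) t x‖ : ℝ) : ℂ) =
      Complex.exp (-((s.re : ℂ) * l)) * LN a (Real.exp l) 0 x := by
  rw [norm_mul, k_norm_LN, Complex.norm_exp, LN]
  push_cast
  simp

theorem mel_integral_norm {a : ℝ} (ha : 0 < a) (s : ℂ) (t : ℝ) {x : ℝ} (hx : 0 < x) :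
    ∫ l : ℝ, ‖Complex.exp (-(s * l)) * LN a (Real.exp l) t x‖ ≤
      x ^ (-s.re) * ‖LNt a ((s.re : ℂ) + Complex.I * (0 : ℝ))‖ := by
  have h1 : ((∫ l : ℝ, ‖Complex.exp (-(s * l)) * LN a (Real.exp l) t x‖ : ℝ) : ℂ) =
      (x : ℂ) ^ (-(s.re : ℂ)) * LNt a ((s.re : ℂ) + Complex.I * (0 : ℝ)) := by
    rw [← k_laplace_LN ha (s.re : ℂ) 0 hx, ← integral_complex_ofReal]
    simp only [mel_norm_term]
  have h2 := congrArg norm h1
  rw [norm_mul, Complex.norm_cpow_eq_rpow_re_of_pos hx, Complex.norm_real] at h2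
  simp only [Complex.neg_re, Complex.ofReal_re] at h2
  rw [← h2]
  exact le_abs_self _

theorem mel_countable : Countable Pr := by
  have : Countable O := Finsupp.Countable.of_moduleFinite (R := ℤ)
  infer_instance

/-- `Re s > 1`: interchange (`integral_tsum_of_summable_integral_norm` or
`hasSum_integral_of_summable_integral_norm`); the integral of the norm of the `n`-th term is at most
`N(n)^{-Re s} · const` by `k_laplace_LN` at `s := Re s`, `t := 0`. -/
theorem k_laplace_PS {a : ℝ} (ha : 0 < a) {f : O → ℂ} (hf : ∀ n, ‖f n‖ ≤ 1) {s : ℂ}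
    (hs : 1 < s.re) (t : ℝ) :
    ∫ l : ℝ, Complex.exp (-(s * l)) * PS f a (Real.exp l) t =
      DS f s * LNt a (s + Complex.I * t) := by
  have := mel_countable
  have hpos : ∀ n : Pr, 0 < nm (n : O) := fun n => lt_of_lt_of_le one_pos (k_one_le_nm n)
  have H := hasSum_integral_of_summable_integral_norm (μ := volume)
    (F := fun (n : Pr) (l : ℝ) => f n * (Complex.exp (-(s * l)) * LN a (Real.exp l) t (nm n)))
    (fun n => (mel_integrable_LN ha s t (hpos n)).const_mul _) (by
      refine Summable.of_nonneg_of_le (fun n => integral_nonneg fun l => norm_nonneg _)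
        (fun n => ?_) ((k_summable_rpow hs).mul_right ‖LNt a ((s.re : ℂ) + Complex.I * (0 : ℝ))‖)
      refine le_trans ?_ (mel_integral_norm ha s t (hpos n))
      simp only [norm_mul (f n)]
      rw [integral_const_mul]
      exact mul_le_of_le_one_left (integral_nonneg fun l => norm_nonneg _) (hf n))
  have e1 : ∀ l : ℝ, Complex.exp (-(s * l)) * PS f a (Real.exp l) t =
      ∑' n : Pr, f n * (Complex.exp (-(s * l)) * LN a (Real.exp l) t (nm n)) := by
    intro l
    rw [PS, ← tsum_mul_left]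
    exact tsum_congr fun n => by ring
  simp only [e1]
  rw [← H.tsum_eq, DS, ← tsum_mul_right]
  refine tsum_congr fun n => ?_
  rw [integral_const_mul, k_laplace_LN ha s t (hpos n), mul_assoc]

theorem mel_integrable_exp_abs {c : ℝ} (hc : 0 < c) :
    Integrable fun l : ℝ => Real.exp (-(c * |l|)) := by
  rw [← integrableOn_univ, ← Iic_union_Ioi (a := (0 : ℝ))]
  refine IntegrableOn.union ?_ ?_
  · refine (integrableOn_exp_mul_Iic hc 0).congr_fun (fun l hl => ?_) measurableSet_Iic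
    simp only [abs_of_nonpos (mem_Iic.1 hl)]; congr 1; ring
  · refine (integrableOn_exp_mul_Ioi (a := -c) (by linarith) 0).congr_fun (fun l hl => ?_)
      measurableSet_Ioi
    simp only [abs_of_pos (mem_Ioi.1 hl)]; congr 1; ring

/-- a two-sided Laplace transform converges and is holomorphic on `Re s > θ` -/
theorem mel_laplace_diff {P : ℝ → ℂ} (hP : Continuous P) {θ B : ℝ}
    (hB : ∀ l : ℝ, 0 ≤ l → ‖P l‖ ≤ B * Real.exp (θ * l))
    (hD : ∀ D : ℝ, 1 < D → ∃ C : ℝ, 0 ≤ C ∧ ∀ l : ℝ, ‖P l‖ ≤ C * Real.exp (D * l)) {s₀ : ℂ}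
    (hs : θ < s₀.re) : Integrable (fun l : ℝ => Complex.exp (-(s₀ * l)) * P l) ∧
      DifferentiableAt ℂ (fun s : ℂ => ∫ l : ℝ, Complex.exp (-(s * l)) * P l) s₀ := by
  obtain ⟨δ, hδ, hδ'⟩ : ∃ δ : ℝ, 0 < δ ∧ θ + 2 * δ = s₀.re := ⟨(s₀.re - θ) / 2, by linarith, by ring⟩
  obtain ⟨C, hC, hC'⟩ := hD (max (s₀.re + 2 * δ) 2) (lt_of_lt_of_le one_lt_two (le_max_right _ _))
  have hB0 : 0 ≤ B := by
    have := hB 0 le_rfl
    simp only [mul_zero, Real.exp_zero, mul_one] at this
    exact (norm_nonneg _).trans this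
  have key : ∀ l : ℝ, ∀ s ∈ Metric.ball s₀ δ,
      ‖Complex.exp (-(s * l)) * P l‖ ≤ (B + C) * Real.exp (-(δ * |l|)) := by
    intro l s hs
    have h1 : |s.re - s₀.re| < δ := by
      rw [Metric.mem_ball, dist_eq_norm] at hs
      exact lt_of_le_of_lt (by simpa using Complex.abs_re_le_norm (s - s₀)) hs
    rw [abs_lt] at h1
    have h2 : ‖Complex.exp (-(s * l))‖ = Real.exp (-(s.re * l)) := by
      rw [Complex.norm_exp]; simp
    rw [norm_mul, h2]
    rcases le_total 0 l with hl | hl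
    · calc Real.exp (-(s.re * l)) * ‖P l‖ ≤ Real.exp (-(s.re * l)) * (B * Real.exp (θ * l)) := by
            gcongr; exact hB l hl
        _ = B * Real.exp (-(s.re * l) + θ * l) := by rw [Real.exp_add]; ring
        _ ≤ (B + C) * Real.exp (-(δ * |l|)) := by
            rw [abs_of_nonneg hl]
            gcongr
            · linarith
            · nlinarith
    · calc Real.exp (-(s.re * l)) * ‖P l‖
          ≤ Real.exp (-(s.re * l)) * (C * Real.exp (max (s₀.re + 2 * δ) 2 * l)) := by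
            gcongr; exact hC' l
        _ = C * Real.exp (-(s.re * l) + max (s₀.re + 2 * δ) 2 * l) := by rw [Real.exp_add]; ring
        _ ≤ (B + C) * Real.exp (-(δ * |l|)) := by
            rw [abs_of_nonpos hl]
            have := le_max_left (s₀.re + 2 * δ) 2
            gcongr
            · linarith
            · nlinarith
  have hcont : ∀ s : ℂ, Continuous fun l : ℝ => Complex.exp (-(s * l)) * P l := by
    intro s; fun_prop
  have hint : Integrable (fun l : ℝ => Complex.exp (-(s₀ * l)) * P l) :=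
    ((mel_integrable_exp_abs hδ).const_mul (B + C)).mono' (hcont s₀).aestronglyMeasurable
      (Filter.Eventually.of_forall fun l => key l s₀ (Metric.mem_ball_self hδ))
  refine ⟨hint, ?_⟩
  refine (hasDerivAt_integral_of_dominated_loc_of_deriv_le (μ := volume)
    (F := fun (s : ℂ) (l : ℝ) => Complex.exp (-(s * l)) * P l)
    (F' := fun (s : ℂ) (l : ℝ) => -(l : ℂ) * (Complex.exp (-(s * l)) * P l))
    (bound := fun l : ℝ => (2 / δ * (B + C)) * Real.exp (-(δ / 2 * |l|)))
    (Metric.ball_mem_nhds s₀ hδ)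
    (Filter.Eventually.of_forall fun s => (hcont s).aestronglyMeasurable) hint
    (Continuous.aestronglyMeasurable (by fun_prop)) (Filter.Eventually.of_forall fun l s hs => ?_)
    ((mel_integrable_exp_abs (half_pos hδ)).const_mul _)
    (Filter.Eventually.of_forall fun l s _ => ?_)).2.differentiableAt
  · rw [norm_mul, norm_neg, Complex.norm_real, Real.norm_eq_abs]
    have h1 : |l| ≤ 2 / δ * Real.exp (δ / 2 * |l|) := by
      have h := Real.add_one_le_exp (δ / 2 * |l|)
      rw [div_mul_eq_mul_div, le_div_iff₀ hδ]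
      linarith
    calc |l| * ‖Complex.exp (-(s * l)) * P l‖
        ≤ (2 / δ * Real.exp (δ / 2 * |l|)) * ((B + C) * Real.exp (-(δ * |l|))) := by
          gcongr; exact key l s hs
      _ = (2 / δ * (B + C)) * Real.exp (δ / 2 * |l| + -(δ * |l|)) := by rw [Real.exp_add]; ring
      _ = _ := by congr 2; ring
  · have h1 : HasDerivAt (fun s : ℂ => -(s * l)) (-(l : ℂ)) s := by
      simpa using ((hasDerivAt_id s).mul_const (l : ℂ)).fun_neg
    exact (h1.cexp.mul_const (P l)).congr_deriv (by ring)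

/-- If `PS = O(e^{θ l})` as `l → ∞` then the Laplace transform is holomorphic on `Re s > θ`
(at `-∞` use `k_norm_PS_le` with `D` large; either `mellin_differentiableAt_of_isBigO_rpow` after
the substitution `Y = e^l`, or `hasDerivAt_integral_of_dominated_loc_of_deriv_le`, or
`Complex.differentiableOn_of_…`); the identity theorem on the half plane `Re s > θ` extends
`k_laplace_PS` to `s = ρ`. -/
theorem k_integral_Dk {a : ℝ} (ha : 0 < a) {f : O → ℂ} (hf : ∀ n, ‖f n‖ ≤ 1) {G : ℂ → ℂ}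
    (hG : Differentiable ℂ G) (hGD : ∀ s : ℂ, 1 < s.re → G s = DS f s) {ρ : ℂ} (h0 : G ρ = 0)
    {θ B : ℝ} (hθ : θ < ρ.re)
    (hB : ∀ l : ℝ, 0 ≤ l → ‖PS f a (Real.exp l) (-ρ.im)‖ ≤ B * Real.exp (θ * l)) :
    Integrable (Dk f a ρ) ∧ ∫ l, Dk f a ρ l = 0 := by
  have key := fun (s : ℂ) (hs : θ < s.re) =>
    mel_laplace_diff (P := fun l => PS f a (Real.exp l) (-ρ.im)) (k_continuous_PS_l ha hf _) hB
      (fun D hD => by
        obtain ⟨C, hC, hC'⟩ := k_norm_PS_le ha hD
        exact ⟨C, hC, fun l => hC' f hf l _⟩) hs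
  refine ⟨(key ρ hθ).1, ?_⟩
  have hU : IsOpen {s : ℂ | θ < s.re} := isOpen_lt continuous_const Complex.continuous_re
  have hF : AnalyticOnNhd ℂ
      (fun s : ℂ => ∫ l : ℝ, Complex.exp (-(s * l)) * PS f a (Real.exp l) (-ρ.im))
      {s : ℂ | θ < s.re} :=
    DifferentiableOn.analyticOnNhd (fun s hs => (key s hs).2.differentiableWithinAt) hU
  have hH : AnalyticOnNhd ℂ (fun s : ℂ => G s * LNt a (s + Complex.I * (-ρ.im : ℝ)))
      {s : ℂ | θ < s.re} := by
    refine DifferentiableOn.analyticOnNhd (Differentiable.differentiableOn ?_) hU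
    unfold LNt
    fun_prop
  have hz : ((max θ 1 + 1 : ℝ) : ℂ) ∈ {s : ℂ | θ < s.re} := by
    have := le_max_left θ 1
    change θ < ((max θ 1 + 1 : ℝ) : ℂ).re
    rw [Complex.ofReal_re]; linarith
  have hE := hF.eqOn_of_preconnected_of_eventuallyEq hH
    (convex_halfSpace_re_gt θ).isPreconnected hz (by
      have h1 : {s : ℂ | 1 < s.re} ∈ nhds ((max θ 1 + 1 : ℝ) : ℂ) := by
        refine (isOpen_lt continuous_const Complex.continuous_re).mem_nhds ?_
        have := le_max_right θ 1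
        change 1 < ((max θ 1 + 1 : ℝ) : ℂ).re
        rw [Complex.ofReal_re]; linarith
      filter_upwards [h1] with s hs
      rw [k_laplace_PS ha hf hs, hGD s hs])
  have := hE hθ
  simp only [h0, zero_mul] at this
  exact this

end Crest.Agent.R17
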