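import Crest.Agent.R17.K.Basic

/-!
Row 17, block K: Möbius inversion for an absolutely convergent double series.
-/

set_option autoImplicit false

namespace Crest.Agent.R17

/-- `∑_{d, d'} μ(d) F(d d') = F(1)`: group the pairs by the product `m = d d'`
(`HasSum.sigma` along `Equiv.sigmaFiberEquiv`, fibres are finite) and use
`∑_{d d' = m} μ(d) = [m = 1]` over primary `d, d'`. -/
theorem k_tsum_mu_mul (F : Pr → ℂ) (hF : Summable fun p : Pr × Pr => ‖F (p.1 * p.2)‖) :
    ∑' p : Pr × Pr, mu (p.1 : O) * F (p.1 * p.2) = F 1 := by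
  classical
  set G : O → ℂ := fun m => if h : Prim m then F ⟨m, h⟩ else 0 with hG
  have hGF : ∀ n : Pr, G n = F n := fun n => dif_pos n.2
  have e1 : ∀ p : Pr × Pr, mu (p.1 : O) * F (p.1 * p.2) = mu (p.1 : O) * G ((p.1 : O) * p.2) :=
    fun p => by rw [← hGF]; rfl
  have hs : Summable fun p : Pr × Pr => mu (p.1 : O) * G ((p.1 : O) * p.2) := by
    refine Summable.of_norm_bounded hF fun p => ?_
    rw [← e1, norm_mul]
    exact mul_le_of_le_one_left (norm_nonneg _) (k_norm_mu_le _)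
  have e2 : ∀ n : Pr, ∑ p ∈ anti n, mu p.1 * G (p.1 * p.2) = if n = 1 then F 1 else 0 := by
    intro n
    have hn := Pr_prim n
    have e3 : ∑ p ∈ anti n, mu p.1 * G (p.1 * p.2) = ∑ d ∈ pdiv n, mu d * F n := by
      refine Finset.sum_bij (fun p _ => p.1) ?_ ?_ ?_ ?_
      · intro p hp
        obtain ⟨h₁, -, h⟩ := mem_anti.1 hp
        exact (mem_pdiv hn.ne_zero).2 ⟨h₁, h ▸ dvd_mul_right _ _⟩
      · intro p hp q hq h
        obtain ⟨h₁, -, h₃⟩ := mem_anti.1 hp
        obtain ⟨-, -, h₄⟩ := mem_anti.1 hq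
        refine Prod.ext h (mul_left_cancel₀ h₁.ne_zero ?_)
        rw [h₃, ← h₄]
        exact congrArg (· * q.2) h.symm
      · intro d hd
        obtain ⟨h₁, h₂⟩ := (mem_pdiv hn.ne_zero).1 hd
        obtain ⟨m, hm, h⟩ := h₁.exists_mul hn h₂
        exact ⟨(d, m), mem_anti.2 ⟨h₁, hm, h.symm⟩, rfl⟩
      · intro p hp
        rw [(mem_anti.1 hp).2.2, hGF]
    rw [e3, ← Finset.sum_mul, sum_mu_pdiv hn]
    by_cases h : n = 1
    · subst h; simp
    · have h' : (n : O) ≠ 1 := fun h' => h (Subtype.ext h')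
      rw [if_neg h, if_neg h', zero_mul]
  rw [tsum_congr e1, tsum_Pr_pairs (F := fun a b => mu a * G (a * b)) hs, tsum_congr e2,
    tsum_ite_eq]

end Crest.Agent.R17
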