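import Crest.Agent.R17.K.Basic

/-!
Row 17, block K: superposition (row-independent centre and twist) and the counting lemma.
-/

set_option autoImplicit false

namespace Crest.Agent.R17

open MeasureTheory Set

theorem ksa_peetre {s D : ℝ} (hs : 0 < s) (hD : 0 ≤ D) (t t' : ℝ) :
    Real.exp (-(s * (t - t') ^ 2 / 2)) ≤
      Real.exp (D ^ 2 / (2 * s)) * (1 + |t|) ^ D * (1 + |t'|) ^ (-D) := by
  have h1 : 0 < 1 + |t'| := by positivity
  have h2 : 1 + |t'| ≤ (1 + |t|) * Real.exp |t - t'| := by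
    have a1 : |t'| ≤ |t| + |t - t'| := by
      have := abs_sub t (t - t'); simpa using this
    have a2 : |t - t'| + 1 ≤ Real.exp |t - t'| := Real.add_one_le_exp _
    have a3 := abs_nonneg t
    have a4 := abs_nonneg (t - t')
    nlinarith [mul_nonneg a3 a4]
  have h3 : (1 + |t'|) ^ D ≤ (1 + |t|) ^ D * Real.exp (D ^ 2 / (2 * s) + s * (t - t') ^ 2 / 2) := by
    refine (Real.rpow_le_rpow h1.le h2 hD).trans ?_
    rw [Real.mul_rpow (by positivity) (Real.exp_pos _).le, ← Real.exp_mul]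
    refine mul_le_mul_of_nonneg_left (Real.exp_le_exp.mpr ?_) (by positivity)
    have : D ^ 2 / (2 * s) + s * (t - t') ^ 2 / 2 - |t - t'| * D =
        (D - s * |t - t'|) ^ 2 / (2 * s) := by
      rw [← sq_abs (t - t')]; field_simp; ring
    have h4 : 0 ≤ (D - s * |t - t'|) ^ 2 / (2 * s) := by positivity
    linarith
  rw [Real.rpow_neg h1.le, ← div_eq_mul_inv, le_div_iff₀ (by positivity)]
  calc Real.exp (-(s * (t - t') ^ 2 / 2)) * (1 + |t'|) ^ D
      ≤ Real.exp (-(s * (t - t') ^ 2 / 2)) *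
        ((1 + |t|) ^ D * Real.exp (D ^ 2 / (2 * s) + s * (t - t') ^ 2 / 2)) :=
        mul_le_mul_of_nonneg_left h3 (Real.exp_pos _).le
    _ = Real.exp (D ^ 2 / (2 * s)) * (1 + |t|) ^ D := by
        rw [mul_left_comm, ← Real.exp_add, mul_comm]
        congr 2; ring

/-- With `1/c² = 1/a₀² - 1/a²`, `θ = l - l₀ ∈ [0, 1]`, `ξ = log x - l₀`, `z = θ/a₀² + i t`:
`LN a₀ e^l t x = exp (-θ²/(2a₀²) - i t θ) · exp (-ξ²/(2c²) + z ξ) · exp (-ξ²/(2a²))` and
`exp (-ξ²/(2c²) + z ξ) = ∫ (c/√(2π)) exp (c² (z - i t')²/2) e^{i t' ξ} dt'`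
(`integral_cexp_quadratic`).  `‖g t'‖ ≤ C₁ exp (-c² (t' - t)²/2) ≤ C₂ (1 + |t' - t|)^{-D}` and Peetre:
`1 + |t'| ≤ (1 + |t|) (1 + |t' - t|)`. -/
theorem k_sup_LN {a₀ a D : ℝ} (ha₀ : 0 < a₀) (ha : a₀ < a) (hD : 0 ≤ D) : ∃ C : ℝ, 0 ≤ C ∧
    ∀ l₀ l t : ℝ, l₀ ≤ l → l ≤ l₀ + 1 → ∃ g : ℝ → ℂ, Continuous g ∧
      (∀ t', ‖g t'‖ ≤ C * (1 + |t|) ^ D * (1 + |t'|) ^ (-D)) ∧
      ∀ x : ℝ, 0 < x → LN a₀ (Real.exp l) t x = ∫ t', g t' * LN a (Real.exp l₀) t' x := by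
  have ha' : 0 < a := ha₀.trans ha
  have hd : 0 < a ^ 2 - a₀ ^ 2 := by nlinarith
  obtain ⟨s, hs, hs'⟩ : ∃ s : ℝ, 0 < s ∧ 1 / a₀ ^ 2 = 1 / s + 1 / a ^ 2 :=
    ⟨a₀ ^ 2 * a ^ 2 / (a ^ 2 - a₀ ^ 2), by positivity, by field_simp; ring⟩
  set b : ℂ := ((-(s / 2) : ℝ) : ℂ) with hb
  have hbre : b.re < 0 := by simp only [hb, Complex.ofReal_re]; linarith
  set K : ℂ := (Real.pi / -b) ^ (1 / 2 : ℂ) with hK
  have hb0 : b ≠ 0 := fun h => by rw [h] at hbre; simp at hbre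
  have hK0 : K ≠ 0 := by
    rw [hK, Ne, Complex.cpow_eq_zero_iff, not_and_or]
    exact Or.inl (div_ne_zero (by exact_mod_cast Real.pi_ne_zero) (neg_ne_zero.mpr hb0))
  refine ⟨‖K⁻¹‖ * Real.exp (s / (2 * a₀ ^ 4)) * Real.exp (D ^ 2 / (2 * s)), by positivity,
    fun l₀ l t h0 h1 => ?_⟩
  set θ : ℝ := l - l₀ with hθ
  have hθ0 : 0 ≤ θ := by linarith
  have hθ1 : θ ≤ 1 := by linarith
  set z : ℂ := ((θ / a₀ ^ 2 : ℝ) : ℂ) + Complex.I * t with hz
  refine ⟨fun t' => K⁻¹ * Complex.exp (-((θ ^ 2 / (2 * a₀ ^ 2) : ℝ) : ℂ) - Complex.I * (t * θ : ℝ) +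
    (s : ℂ) * (z - Complex.I * t') ^ 2 / 2), by fun_prop, fun t' => ?_, fun x hx => ?_⟩
  · rw [norm_mul, Complex.norm_exp]
    have hre : (-((θ ^ 2 / (2 * a₀ ^ 2) : ℝ) : ℂ) - Complex.I * (t * θ : ℝ) +
        (s : ℂ) * (z - Complex.I * t') ^ 2 / 2).re =
        -(θ ^ 2 / (2 * a₀ ^ 2)) + s * (θ / a₀ ^ 2) ^ 2 / 2 - s * (t - t') ^ 2 / 2 := by
      have e1 : (s : ℂ) * (z - Complex.I * t') ^ 2 / 2 =
          ((s * (θ / a₀ ^ 2) ^ 2 / 2 - s * (t - t') ^ 2 / 2 : ℝ) : ℂ) +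
            Complex.I * ((s * (θ / a₀ ^ 2) * (t - t') : ℝ) : ℂ) := by
        rw [hz]; push_cast
        linear_combination (s * (t - t') ^ 2 / 2 : ℂ) * Complex.I_sq
      rw [e1]
      simp only [Complex.add_re, Complex.sub_re, Complex.neg_re, Complex.ofReal_re, Complex.mul_re,
        Complex.I_re, Complex.I_im, Complex.ofReal_im]
      ring
    rw [hre]
    have h2 : -(θ ^ 2 / (2 * a₀ ^ 2)) + s * (θ / a₀ ^ 2) ^ 2 / 2 ≤ s / (2 * a₀ ^ 4) := by
      have a1 : 0 ≤ θ ^ 2 / (2 * a₀ ^ 2) := by positivity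
      have a2 : θ ^ 2 ≤ 1 := by nlinarith
      have a3 : s * (θ / a₀ ^ 2) ^ 2 / 2 = θ ^ 2 * (s / (2 * a₀ ^ 4)) := by field_simp
      have a4 : 0 ≤ s / (2 * a₀ ^ 4) := by positivity
      nlinarith
    calc ‖K⁻¹‖ * Real.exp (-(θ ^ 2 / (2 * a₀ ^ 2)) + s * (θ / a₀ ^ 2) ^ 2 / 2 - s * (t - t') ^ 2 / 2)
        ≤ ‖K⁻¹‖ * (Real.exp (s / (2 * a₀ ^ 4)) * Real.exp (-(s * (t - t') ^ 2 / 2))) := by
          rw [← Real.exp_add]
          exact mul_le_mul_of_nonneg_left (Real.exp_le_exp.mpr (by linarith)) (norm_nonneg _)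
      _ ≤ ‖K⁻¹‖ * (Real.exp (s / (2 * a₀ ^ 4)) *
            (Real.exp (D ^ 2 / (2 * s)) * (1 + |t|) ^ D * (1 + |t'|) ^ (-D))) := by
          gcongr
          exact ksa_peetre hs hD t t'
      _ = _ := by ring
  · set ξ : ℝ := Real.log x - l₀ with hξ
    have e0 : Real.log (x / Real.exp l₀) = ξ := by
      rw [Real.log_div hx.ne' (Real.exp_pos _).ne', Real.log_exp]
    have e1 : Real.log (x / Real.exp l) = ξ - θ := by
      rw [Real.log_div hx.ne' (Real.exp_pos _).ne', Real.log_exp, hξ, hθ]; ring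
    set d : ℂ := -((θ ^ 2 / (2 * a₀ ^ 2) : ℝ) : ℂ) - Complex.I * (t * θ : ℝ) + s * z ^ 2 / 2 -
      ((ξ ^ 2 / (2 * a ^ 2) : ℝ) : ℂ) with hd'
    have e2 : ∀ t' : ℝ, K⁻¹ * Complex.exp (-((θ ^ 2 / (2 * a₀ ^ 2) : ℝ) : ℂ) - Complex.I * (t * θ : ℝ) +
        (s : ℂ) * (z - Complex.I * t') ^ 2 / 2) * LN a (Real.exp l₀) t' x =
        K⁻¹ * Complex.exp (b * (t' : ℂ) ^ 2 + (Complex.I * (ξ - s * z)) * t' + d) := fun t' => by
      rw [LN, e0, mul_assoc, ← Complex.exp_add]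
      congr 2
      rw [hd', hb]; push_cast
      linear_combination (s * (t' : ℂ) ^ 2 / 2) * Complex.I_sq
    simp only [e2]
    rw [integral_const_mul, integral_cexp_quadratic hbre, ← hK, ← mul_assoc, inv_mul_cancel₀ hK0,
      one_mul, LN, e1]
    congr 1
    have hsC : (1 : ℂ) / (a₀ : ℂ) ^ 2 = 1 / s + 1 / (a : ℂ) ^ 2 := by exact_mod_cast hs'
    have hs0 : (s : ℂ) ≠ 0 := by exact_mod_cast hs.ne'
    have e3 : (Complex.I * (ξ - s * z)) ^ 2 / (4 * b) = (ξ - s * z) ^ 2 / (2 * s) := by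
      rw [hb, mul_pow, Complex.I_sq]; push_cast; field_simp; ring
    have e4 : (ξ - s * z) ^ 2 / (2 * s) = ξ ^ 2 / 2 * (1 / s) - ξ * z + s * z ^ 2 / 2 := by
      field_simp; ring
    rw [e3, e4, hd', hz]; push_cast
    linear_combination (-(ξ : ℂ) ^ 2 / 2) * hsC

theorem k_integrable_w {D : ℝ} (hD : 2 ≤ D) : Integrable fun t : ℝ => (1 + |t|) ^ (-D) := by
  have := integrable_one_add_norm (E := ℝ) (μ := volume) (r := D) (by simp; linarith)
  simpa [Real.norm_eq_abs] using this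

theorem k_integrable_w_PS {a D : ℝ} (ha : 0 < a) (hD : 2 ≤ D) {f : O → ℂ} (hf : ∀ n, ‖f n‖ ≤ 1)
    (l : ℝ) (p : ℕ) :
    Integrable fun t : ℝ => (1 + |t|) ^ (-D) * ‖PS f a (Real.exp l) t‖ ^ p := by
  obtain ⟨C, hC, h⟩ := k_norm_PS_le (a := a) (D := 2) ha (by norm_num)
  refine (k_integrable_w hD).mul_bdd (c := (C * Real.exp (2 * l)) ^ p)
    ((k_continuous_PS_t ha hf l).norm.pow p).aestronglyMeasurable (ae_of_all _ fun t => ?_)
  rw [norm_pow, norm_norm]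
  exact pow_le_pow_left₀ (norm_nonneg _) (h f hf l t) p

theorem ksa_countable : Countable O := by
  have b := Module.Free.chooseBasis ℤ O
  exact (b.repr.injective).countable

/-- sum `k_sup_LN` over `n` (interchange of `∑'` and `∫`) -/
theorem k_sup_PS {a₀ a D : ℝ} (ha₀ : 0 < a₀) (ha : a₀ < a) (hD : 2 ≤ D) : ∃ C : ℝ, 0 ≤ C ∧
    ∀ (f : O → ℂ), (∀ n, ‖f n‖ ≤ 1) → ∀ l₀ l t : ℝ, l₀ ≤ l → l ≤ l₀ + 1 →
      ‖PS f a₀ (Real.exp l) t‖ ≤
        C * (1 + |t|) ^ D * ∫ t', (1 + |t'|) ^ (-D) * ‖PS f a (Real.exp l₀) t'‖ := by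
  have ha' : 0 < a := ha₀.trans ha
  obtain ⟨C, hC, h⟩ := k_sup_LN (D := D) ha₀ ha (by linarith)
  refine ⟨C, hC, fun f hf l₀ l t h0 h1 => ?_⟩
  obtain ⟨g, hg, hgb, hge⟩ := h l₀ l t h0 h1
  have := ksa_countable
  have hgi : Integrable g :=
    ((k_integrable_w hD).const_mul (C * (1 + |t|) ^ D)).mono' hg.aestronglyMeasurable
      (ae_of_all _ hgb)
  set F : Pr → ℝ → ℂ := fun n t' => g t' * (f n * LN a (Real.exp l₀) t' (nm n)) with hF
  have hFb : ∀ (n : Pr) (t' : ℝ), ‖F n t'‖ ≤ ‖g t'‖ * ‖LN a (Real.exp l₀) 0 (nm n)‖ := fun n t' => by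
    rw [hF]
    simp only [norm_mul]
    refine mul_le_mul_of_nonneg_left ?_ (norm_nonneg _)
    rw [k_norm_LN a _ t', k_norm_LN a _ 0]
    exact mul_le_of_le_one_left (Real.exp_pos _).le (hf n)
  have hFi : ∀ n : Pr, Integrable (F n) := fun n => by
    refine (hgi.norm.mul_const _).mono' (Continuous.aestronglyMeasurable ?_) (ae_of_all _ (hFb n))
    simp only [hF, LN]
    fun_prop
  have hFs : Summable fun n : Pr => ∫ t', ‖F n t'‖ := by
    refine Summable.of_nonneg_of_le (fun n => integral_nonneg fun _ => norm_nonneg _) (fun n => ?_)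
      ((k_summable_LN ha' l₀ 0).mul_left (∫ t', ‖g t'‖))
    rw [← integral_mul_const]
    exact integral_mono (hFi n).norm (hgi.norm.mul_const _) (hFb n)
  have e1 : PS f a₀ (Real.exp l) t = ∫ t', g t' * PS f a (Real.exp l₀) t' := by
    have e2 : ∀ n : Pr, f n * LN a₀ (Real.exp l) t (nm n) = ∫ t', F n t' := fun n => by
      rw [hge _ (lt_of_lt_of_le one_pos (k_one_le_nm n)), ← integral_const_mul]
      refine integral_congr_ae (ae_of_all _ fun t' => ?_)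
      simp only [hF]; ring
    rw [PS, tsum_congr e2, integral_tsum_of_summable_integral_norm hFi hFs]
    refine integral_congr_ae (ae_of_all _ fun t' => ?_)
    simp only [hF, PS]
    exact tsum_mul_left
  rw [e1, ← integral_const_mul]
  refine norm_integral_le_of_norm_le ?_ (ae_of_all _ fun t' => ?_)
  · have := k_integrable_w_PS ha' hD hf l₀ 1
    simp only [pow_one] at this
    exact this.const_mul _
  · rw [norm_mul, ← mul_assoc]
    exact mul_le_mul_of_nonneg_right (hgb t') (norm_nonneg _)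

/-- Power mean inequality against a weight: integrate Bernoulli's
`x^p ≥ m^p + p m^{p-1} (x - m)` with `m = ∫ w F / ∫ w` (or Jensen / Hölder). -/
theorem k_pow_mean {w F : ℝ → ℝ} (hw : ∀ t, 0 < w t) (hF : ∀ t, 0 ≤ F t) {p : ℕ} (hp : 1 ≤ p)
    (h0 : Integrable w) (h1 : Integrable fun t => w t * F t)
    (h2 : Integrable fun t => w t * F t ^ p) :
    (∫ t, w t * F t) ^ p ≤ (∫ t, w t) ^ (p - 1) * ∫ t, w t * F t ^ p := by
  have hW : 0 < ∫ t, w t := by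
    rw [integral_pos_iff_support_of_nonneg (fun t => (hw t).le) h0]
    have : Function.support w = univ := by
      ext t
      simp [(hw t).ne']
    rw [this]
    simp
  set W := ∫ t, w t with hWdef
  set I := ∫ t, w t * F t with hIdef
  have hI : 0 ≤ I := integral_nonneg fun t => mul_nonneg (hw t).le (hF t)
  set m := I / W with hm
  have hm0 : 0 ≤ m := div_nonneg hI hW.le
  have hmW : m * W = I := div_mul_cancel₀ I hW.ne'
  have hpt : ∀ t, (m ^ p - p * m ^ (p - 1) * m) * w t + p * m ^ (p - 1) * (w t * F t) ≤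
      w t * F t ^ p := by
    intro t
    have hb := pow_add_mul_le_add_pow (a := m) (b := F t - m) hm0 (by linarith [hF t]) p
    have hb' := mul_le_mul_of_nonneg_left hb (hw t).le
    have e : m + (F t - m) = F t := by ring
    rw [e] at hb'
    calc _ = w t * (m ^ p + p * m ^ (p - 1) * (F t - m)) := by ring
      _ ≤ _ := hb'
  have hint := integral_mono ((h0.const_mul _).add (h1.const_mul _)) h2 hpt
  have e1 : ∫ t, ((m ^ p - p * m ^ (p - 1) * m) * w t + p * m ^ (p - 1) * (w t * F t)) =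
      m ^ p * W := by
    rw [integral_add (h0.const_mul _) (h1.const_mul _), integral_const_mul, integral_const_mul,
      ← hWdef, ← hIdef, ← hmW]
    ring
  have hint' : m ^ p * W ≤ ∫ t, w t * F t ^ p := e1 ▸ hint
  obtain ⟨k, rfl⟩ : ∃ k, p = k + 1 := ⟨p - 1, by omega⟩
  calc I ^ (k + 1) = W ^ (k + 1 - 1) * (m ^ (k + 1) * W) := by
        rw [← hmW, Nat.add_sub_cancel]; ring
    _ ≤ _ := mul_le_mul_of_nonneg_left hint' (pow_nonneg hW.le _)

/-- The counting lemma: `k_sup_PS` with `D = E + 2`, `k_pow_mean`, sum over the rows, interchange the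
finite sum with the integral, `∫ (1 + |t'|)^{-2} < ∞`. -/
theorem k_count {a₀ a E : ℝ} (ha₀ : 0 < a₀) (ha : a₀ < a) (hE : 0 ≤ E) {p : ℕ} (hp : 1 ≤ p) :
    ∃ C : ℝ, 0 ≤ C ∧ ∀ (A : Finset O) (f : O → O → ℂ) (W : O → ℝ) (l₀ T V B : ℝ), 0 ≤ T → 0 ≤ B →
      (∀ u ∈ A, ∀ n, ‖f u n‖ ≤ 1) → (∀ u ∈ A, 0 ≤ W u) →
      (∀ u ∈ A, ∃ l t, l₀ ≤ l ∧ l ≤ l₀ + 1 ∧ |t| ≤ T ∧
        V ≤ ‖PS (f u) a₀ (Real.exp l) t‖ ^ p * W u) →
      (∀ t', ∑ u ∈ A, ‖PS (f u) a (Real.exp l₀) t'‖ ^ p * W u ≤ B * (1 + |t'|) ^ E) →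
      A.card * V ≤ C * (1 + T) ^ C * B := by
  have hD : (2 : ℝ) ≤ E + 2 := by linarith
  obtain ⟨C₀, hC₀, hsup⟩ := k_sup_PS ha₀ ha hD
  have hapos : 0 < a := ha₀.trans ha
  set Wt : ℝ := ∫ t : ℝ, (1 + |t|) ^ (-(E + 2)) with hWt
  set J : ℝ := ∫ t : ℝ, (1 + |t|) ^ (-(2 : ℝ)) with hJ
  have hwpos : ∀ (D t : ℝ), 0 < (1 + |t|) ^ D := fun D t => Real.rpow_pos_of_pos (by positivity) _
  have hWt0 : 0 ≤ Wt := integral_nonneg fun t => (hwpos _ t).le
  have hJ0 : 0 ≤ J := integral_nonneg fun t => (hwpos _ t).le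
  set K : ℝ := C₀ ^ p * Wt ^ (p - 1) with hK
  have hK0 : 0 ≤ K := by positivity
  refine ⟨K * J + (E + 2) * p, by positivity, ?_⟩
  intro A f W l₀ T V B hT hB hf hW hV hsum
  have hT1 : (1 : ℝ) ≤ 1 + T := by linarith
  set P : ℝ := (1 + T) ^ ((E + 2) * p) with hP
  have hP0 : 0 ≤ P := Real.rpow_nonneg (by linarith) _
  have key : ∀ u ∈ A, V ≤ K * P *
      ∫ t', (1 + |t'|) ^ (-(E + 2)) * (‖PS (f u) a (Real.exp l₀) t'‖ ^ p * W u) := by
    intro u hu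
    obtain ⟨l, t, h1, h2, h3, h4⟩ := hV u hu
    have hs := hsup (f u) (hf u hu) l₀ l t h1 h2
    have hpm := k_pow_mean (w := fun t' : ℝ => (1 + |t'|) ^ (-(E + 2)))
      (F := fun t' => ‖PS (f u) a (Real.exp l₀) t'‖) (fun t' => hwpos _ t')
      (fun _ => norm_nonneg _) hp (k_integrable_w hD)
      (by simpa using k_integrable_w_PS hapos hD (hf u hu) l₀ 1)
      (k_integrable_w_PS hapos hD (hf u hu) l₀ p)
    set I := ∫ t', (1 + |t'|) ^ (-(E + 2)) * ‖PS (f u) a (Real.exp l₀) t'‖ with hI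
    set I' := ∫ t', (1 + |t'|) ^ (-(E + 2)) * ‖PS (f u) a (Real.exp l₀) t'‖ ^ p with hI'
    have hI0 : 0 ≤ I := integral_nonneg fun t' => mul_nonneg (hwpos _ t').le (norm_nonneg _)
    have e : ∫ t', (1 + |t'|) ^ (-(E + 2)) * (‖PS (f u) a (Real.exp l₀) t'‖ ^ p * W u) =
        I' * W u := by
      rw [hI', ← integral_mul_const]
      congr 1
      ext t'
      ring
    have hpow : ((1 + |t|) ^ (E + 2)) ^ p ≤ P := by
      rw [hP, Real.rpow_mul (by linarith), Real.rpow_natCast]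
      exact pow_le_pow_left₀ (hwpos _ t).le
        (Real.rpow_le_rpow (by positivity) (by linarith) (by linarith)) p
    have h5 : ‖PS (f u) a₀ (Real.exp l) t‖ ^ p ≤ K * P * I' := by
      calc _ ≤ (C₀ * (1 + |t|) ^ (E + 2) * I) ^ p := pow_le_pow_left₀ (norm_nonneg _) hs p
        _ = C₀ ^ p * ((1 + |t|) ^ (E + 2)) ^ p * I ^ p := by rw [mul_pow, mul_pow]
        _ ≤ C₀ ^ p * P * (Wt ^ (p - 1) * I') := by
          apply mul_le_mul (mul_le_mul_of_nonneg_left hpow (by positivity)) hpm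
            (pow_nonneg hI0 _) (by positivity)
        _ = K * P * I' := by rw [hK]; ring
    rw [e, ← mul_assoc]
    exact h4.trans (mul_le_mul_of_nonneg_right h5 (hW u hu))
  have hint : ∀ u ∈ A, Integrable fun t' : ℝ =>
      (1 + |t'|) ^ (-(E + 2)) * (‖PS (f u) a (Real.exp l₀) t'‖ ^ p * W u) := by
    intro u hu
    have := (k_integrable_w_PS hapos hD (hf u hu) l₀ p).mul_const (W u)
    simpa only [mul_assoc] using this
  have hsumI : ∑ u ∈ A, ∫ t', (1 + |t'|) ^ (-(E + 2)) *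
      (‖PS (f u) a (Real.exp l₀) t'‖ ^ p * W u) ≤ J * B := by
    rw [← integral_finsetSum A hint, hJ, ← integral_mul_const]
    refine integral_mono (integrable_finsetSum A hint)
      ((k_integrable_w le_rfl).mul_const B) fun t' => ?_
    simp only
    rw [← Finset.mul_sum]
    calc _ ≤ (1 + |t'|) ^ (-(E + 2)) * (B * (1 + |t'|) ^ E) :=
          mul_le_mul_of_nonneg_left (hsum t') (hwpos _ t').le
      _ = ((1 + |t'|) ^ (-(E + 2)) * (1 + |t'|) ^ E) * B := by ring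
      _ = _ := by
          rw [← Real.rpow_add (by positivity)]
          congr 2
          ring
  have hEp : 0 ≤ (E + 2) * p := by positivity
  have hKJ : 0 ≤ K * J := by positivity
  calc (A.card : ℝ) * V = ∑ _u ∈ A, V := by simp
    _ ≤ ∑ u ∈ A, K * P * ∫ t', (1 + |t'|) ^ (-(E + 2)) *
      (‖PS (f u) a (Real.exp l₀) t'‖ ^ p * W u) := Finset.sum_le_sum key
    _ ≤ K * P * (J * B) := by
        rw [← Finset.mul_sum]
        exact mul_le_mul_of_nonneg_left hsumI (by positivity)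
    _ = (K * J) * P * B := by ring
    _ ≤ _ := by
        refine mul_le_mul_of_nonneg_right (mul_le_mul (by linarith) ?_ hP0 (by linarith)) hB
        exact Real.rpow_le_rpow_of_exponent_le hT1 (by linarith)

end Crest.Agent.R17
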